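import Vale.Agent.P217.EFDefs

/-!
# P217, block EF, Jacobian part: the facts used from blocks A and COVER
-/

noncomputable section

namespace Vale.Agent.P217.EF

variable {p : ℕ} [Fact p.Prime]

/-- From block A: multiplication by p modulo the height ideals, and in the Honda law. -/
def CoeffPin : Prop :=
  ∀ (p n : ℕ) [Fact p.Prime], 1 ≤ n →
    (∀ F : FormalGroup (E0 p n), IsUniversalDeformation p n F → ∀ h, 1 ≤ h → h ≤ n →
      (∀ k, ¬ p ^ h ∣ k → PowerSeries.coeff k (nsmulSeries F p) ∈ heightIdeal p n h) ∧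
        PowerSeries.coeff (p ^ h) (nsmulSeries F p) - vv p n h ∈ heightIdeal p n h) ∧
    ∀ (G : FormalGroup ℤ_[p]), IsHondaLift n G → ∀ (C : Type) [NontriviallyNormedField C]
      [IsUltrametricDist C] [CompleteSpace C] [CharP C p] (z : C),
      ‖z‖ < 1 → nPoint (hondaIn G C) p z = z ^ p ^ n

/-- The covering facts at a point. -/
structure CoverFacts {n h : ℕ} {C : Type} [NontriviallyNormedField C] [IsUltrametricDist C]
    [CompleteSpace C] [IsAlgClosed C] [CharP C p] (Gn : FormalGroup ℤ_[p])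
    (F : FormalGroup (E0 p n)) (P : GoodPoint p n h C) : Prop where
  pMul_add : ∀ a b, ‖a‖ < 1 → ‖b‖ < 1 →
    pMul F P (gadd (lawAt F P) a b) = gadd (lawAt F P) (pMul F P a) (pMul F P b)
  pi_small : ∀ z, ‖z‖ < 1 → ‖piMap F P z‖ < 1
  pi_bound : ∀ z, ‖z‖ < 1 → ‖piMap F P z‖ ≤ max ‖z‖ (p : ℝ)⁻¹
  pi_add : ∀ a b, ‖a‖ < 1 → ‖b‖ < 1 →
    piMap F P (gadd (hondaIn Gn C) a b) = gadd (lawAt F P) (piMap F P a) (piMap F P b)
  pi_pow : ∀ z, ‖z‖ < 1 → piMap F P (z ^ p ^ n) = pMul F P (piMap F P z)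
  pi_surj : ∀ w, ‖w‖ < 1 → ∃ z, ‖z‖ < 1 ∧ piMap F P z = w
  pi_lipschitz : ∃ K δ : ℝ, 0 < δ ∧ ∀ η P', IsShift P η P' → ‖η‖ ≤ δ →
    ∀ z, ‖z‖ < 1 → ‖piMap F P' z - piMap F P z‖ ≤ K * ‖η‖

/-- From the covering part. -/
def CoverPin : Prop :=
  ∀ (p n h : ℕ) [Fact p.Prime] (C : Type) [NontriviallyNormedField C] [IsUltrametricDist C]
    [CompleteSpace C] [IsAlgClosed C] [CharP C p] (Gn : FormalGroup ℤ_[p]),
    1 ≤ h → h < n → IsHondaLift n Gn →
      ∀ F : FormalGroup (E0 p n), IsUniversalDeformation p n F →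
        ∀ P : GoodPoint p n h C, CoverFacts Gn F P

end Vale.Agent.P217.EF
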