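import Vale.Agent.P217.EF.Point
import Vale.Agent.P217.A.Inst

/-!
# P217, block EF: points as values of the reduced series, and shifted points
-/

noncomputable section

namespace Vale.Agent.P217.EF

open scoped Classical

variable {p : ℕ} [Fact p.Prime] {n h : ℕ}

theorem mem_maximal_iff (a : E0 p n) :
    a ∈ IsLocalRing.maximalIdeal (E0 p n) ↔ residue a = 0 := by
  rw [IsLocalRing.mem_maximalIdeal, mem_nonunits_iff, MvPowerSeries.isUnit_iff_constantCoeff,
    residue, RingHom.comp_apply]
  constructor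
  · intro h
    by_contra hne
    exact h (WittVector.isUnit_of_coeff_zero_ne_zero _ hne)
  · intro h hu
    exact not_isUnit_zero (h ▸ hu.map WittVector.constantCoeff)

theorem vv_succ (i : Fin (n - 1)) : vv p n (i.1 + 1) = MvPowerSeries.X i := by
  have h1 := i.2
  rw [vv, dif_pos ⟨by omega, by omega⟩]
  rfl

theorem X_mem_maximal (i : Fin (n - 1)) :
    (MvPowerSeries.X i : E0 p n) ∈ IsLocalRing.maximalIdeal (E0 p n) := by
  rw [mem_maximal_iff, residue, RingHom.comp_apply, MvPowerSeries.constantCoeff_X, map_zero]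

theorem p_mem_maximal : (p : E0 p n) ∈ IsLocalRing.maximalIdeal (E0 p n) := by
  rw [mem_maximal_iff, map_natCast, CharP.cast_eq_zero]

/-- The part of a series divisible by the i-th variable and by none before it. -/
def firstPart (a : E0 p n) (i : Fin (n - 1)) : E0 p n := fun k =>
  if ∀ l, l < i → k l = 0 then MvPowerSeries.coeff (k + Finsupp.single i 1) a else 0

theorem eq_sum_firstPart {a : E0 p n} (h0 : MvPowerSeries.constantCoeff a = 0) :
    a = ∑ i, MvPowerSeries.X i * firstPart a i := by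
  ext k : 1
  rw [map_sum]
  by_cases hk : k = 0
  · subst hk
    rw [Finset.sum_eq_zero fun i _ => by
      rw [MvPowerSeries.X_def, MvPowerSeries.coeff_monomial_mul,
        if_neg (fun hle => by simpa using hle i)]]
    simpa [MvPowerSeries.coeff_zero_eq_constantCoeff_apply] using h0
  have hne : (Finset.univ.filter fun l => k l ≠ 0).Nonempty := by
    by_contra hh
    rw [Finset.not_nonempty_iff_eq_empty, Finset.filter_eq_empty_iff] at hh
    exact hk (Finsupp.ext fun l => by simpa using hh (Finset.mem_univ l))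
  obtain ⟨i, hi, hmin⟩ := Finset.exists_min_image _ id hne
  simp only [Finset.mem_filter, Finset.mem_univ, true_and, id] at hi hmin
  rw [Finset.sum_eq_single i]
  · have hle : Finsupp.single i 1 ≤ k := by
      rw [Finsupp.single_le_iff]; omega
    rw [MvPowerSeries.X_def, MvPowerSeries.coeff_monomial_mul, if_pos hle, one_mul]
    show _ = firstPart a i (k - Finsupp.single i 1)
    rw [firstPart, if_pos, tsub_add_cancel_of_le hle]
    intro l hl
    have : k l = 0 := by
      by_contra hkl
      exact absurd (hmin l hkl) (not_le.2 hl)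
    simp [this]
  · intro l _ hl
    rw [MvPowerSeries.X_def, MvPowerSeries.coeff_monomial_mul]
    split_ifs with hle
    · rw [one_mul]
      show firstPart a l (k - Finsupp.single l 1) = 0
      rw [Finsupp.single_le_iff] at hle
      rw [firstPart, if_neg]
      intro hall
      have hil : i < l := lt_of_le_of_ne (hmin l (by omega)) (Ne.symm hl)
      exact hi (by simpa [Finsupp.single_eq_of_ne hil.ne] using hall i hil)
    · rfl
  · simp

theorem mem_pow_of_coeff_eq_zero : ∀ (N : ℕ) (a : E0 p n),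
    (∀ k : Fin (n - 1) →₀ ℕ, (∑ l, k l) < N → MvPowerSeries.coeff k a = 0) →
      a ∈ IsLocalRing.maximalIdeal (E0 p n) ^ N
  | 0, a, _ => by simp
  | N + 1, a, ha => by
    have h0 : MvPowerSeries.constantCoeff a = 0 := by
      simpa [MvPowerSeries.coeff_zero_eq_constantCoeff_apply] using ha 0 (by simp)
    rw [eq_sum_firstPart h0]
    refine Ideal.sum_mem _ fun i _ => ?_
    rw [pow_succ']
    refine Ideal.mul_mem_mul (X_mem_maximal i) (mem_pow_of_coeff_eq_zero N _ fun k hk => ?_)
    show firstPart a i k = 0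
    rw [firstPart]
    split_ifs with hl
    · refine ha _ ?_
      simp only [Finsupp.coe_add, Pi.add_apply, Finset.sum_add_distrib]
      rw [Finset.sum_eq_single i (fun b _ hb => Finsupp.single_eq_of_ne hb) (by simp)]
      simp only [Finsupp.single_eq_same]
      omega
    · rfl

variable {C : Type} [NontriviallyNormedField C] [IsUltrametricDist C]

/-- The coordinates of a point. -/
def coord (P : GoodPoint p n h C) (i : Fin (n - 1)) : C := P.chi (vv p n (i.1 + 1))

omit [IsUltrametricDist C] in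
theorem coord_eq (P : GoodPoint p n h C) (i : Fin (n - 1)) :
    coord P i = P.chi (MvPowerSeries.X i) := by rw [coord, vv_succ]

omit [IsUltrametricDist C] in
theorem norm_emb_le (j : GaloisField p n →+* C) (a : GaloisField p n) : ‖j a‖ ≤ 1 := by
  by_cases ha : a = 0
  · simp [ha]
  have : Fintype (GaloisField p n) := Fintype.ofFinite _
  have h1 : ‖j a‖ ^ (Fintype.card (GaloisField p n) - 1) = 1 := by
    rw [← norm_pow, ← map_pow, FiniteField.pow_card_sub_one_eq_one a ha, map_one, norm_one]
  exact ((pow_eq_one_iff_of_nonneg (norm_nonneg _)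
    (Nat.sub_ne_zero_of_lt Fintype.one_lt_card)).1 h1).le

omit [IsUltrametricDist C] in
theorem norm_coord_le (P : GoodPoint p n h C) (i : Fin (n - 1)) : ‖coord P i‖ ≤ (p : ℝ)⁻¹ := by
  rw [coord_eq]; exact P.chi_small _ (X_mem_maximal i)

omit [IsUltrametricDist C] in
theorem norm_coord_lt (P : GoodPoint p n h C) (i : Fin (n - 1)) : ‖coord P i‖ < 1 :=
  lt_of_le_of_lt (norm_coord_le P i) (inv_prime_lt_one (p := p))

omit [IsUltrametricDist C] in
theorem norm_le_pow_of_mem {χ : E0 p n →+* C} {r : ℝ} (hr : 0 ≤ r)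
    (hχ : ∀ a ∈ IsLocalRing.maximalIdeal (E0 p n), ‖χ a‖ ≤ r)
    (hadd : ∀ a b : C, ∀ c : ℝ, ‖a‖ ≤ c → ‖b‖ ≤ c → ‖a + b‖ ≤ c) :
    ∀ (N : ℕ), ∀ a ∈ IsLocalRing.maximalIdeal (E0 p n) ^ N, (∀ b, ‖χ b‖ ≤ 1) → ‖χ a‖ ≤ r ^ N
  | 0, a, _, h1 => by simpa using h1 a
  | N + 1, a, ha, h1 => by
    rw [pow_succ'] at ha
    refine Submodule.mul_induction_on ha (fun x hx y hy => ?_) fun x y hx hy => ?_
    · rw [map_mul, norm_mul, pow_succ']
      exact mul_le_mul (hχ x hx) (norm_le_pow_of_mem hr hχ hadd N y hy h1) (norm_nonneg _) hr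
    · rw [map_add]; exact hadd _ _ _ hx hy

variable [CompleteSpace C]

/-- The value of the reduced series at given coordinates. -/
def valueHom (j : GaloisField p n →+* C) (y : Fin (n - 1) → C) (hy : ∀ i, ‖y i‖ < 1) :
    E0 p n →+* C :=
  (Eval.evalHom j (norm_emb_le j) y hy).comp (red p n)

theorem valueHom_apply (j : GaloisField p n →+* C) {y : Fin (n - 1) → C} (hy : ∀ i, ‖y i‖ < 1)
    (a : E0 p n) : valueHom j y hy a = mveval j (red p n a) y :=
  (Eval.mveval_eq_evalHom (norm_emb_le j) hy (red p n a)).symm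

theorem norm_valueHom_le_of_mem (j : GaloisField p n →+* C) {y : Fin (n - 1) → C}
    (hy : ∀ i, ‖y i‖ < 1) {r : ℝ} (hr : 0 ≤ r) (hr1 : r ≤ 1) (hyr : ∀ i, ‖y i‖ ≤ r)
    {a : E0 p n} (ha : a ∈ IsLocalRing.maximalIdeal (E0 p n)) : ‖valueHom j y hy a‖ ≤ r := by
  rw [valueHom_apply]
  refine Eval.norm_mveval_le_max (norm_emb_le j) _ ?_ hr hr1 hyr
  rw [mem_maximal_iff, residue, RingHom.comp_apply] at ha
  rw [red, MvPowerSeries.constantCoeff_map]
  exact ha

theorem chi_eq_value (hn1 : 1 ≤ n) (P : GoodPoint p n h C) (a : E0 p n) :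
    P.chi a = mveval P.emb (red p n a) (coord P) := by
  rw [← valueHom_apply P.emb (norm_coord_lt P)]
  set χ := valueHom P.emb (coord P) (norm_coord_lt P) with hχ
  have hC : ∀ r, χ (MvPowerSeries.C r) = P.chi (MvPowerSeries.C r) := fun r => by
    rw [hχ, valueHom_apply, show P.chi (MvPowerSeries.C r) = _ from P.chi_constants r, red,
      MvPowerSeries.map_C, Eval.mveval_C]
  have hX : ∀ i, χ (MvPowerSeries.X i) = P.chi (MvPowerSeries.X i) := fun i => by
    rw [hχ, valueHom_apply, red, MvPowerSeries.map_X, Eval.mveval_X, coord_eq]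
  have hr : (0 : ℝ) ≤ (p : ℝ)⁻¹ := by positivity
  refine eq_of_norm_sub_le_zero ?_
  refine le_of_tendsto_of_tendsto' tendsto_const_nhds
    (tendsto_pow_atTop_nhds_zero_of_lt_one hr (inv_prime_lt_one (p := p))) fun N => ?_
  let f : MvPolynomial (Fin (n - 1)) (WittVector p (GaloisField p n)) :=
    MvPowerSeries.truncTotal N a
  have hf : P.chi (f : E0 p n) = χ (f : E0 p n) := by
    have : P.chi.comp MvPolynomial.coeToMvPowerSeries.ringHom =
        χ.comp MvPolynomial.coeToMvPowerSeries.ringHom :=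
      MvPolynomial.ringHom_ext (fun r => by simpa using (hC r).symm)
        (fun i => by simpa using (hX i).symm)
    exact DFunLike.congr_fun this f
  have hm : a - (f : E0 p n) ∈ IsLocalRing.maximalIdeal (E0 p n) ^ N :=
    mem_pow_of_coeff_eq_zero N _ fun k hk => by
      rw [map_sub, MvPolynomial.coeff_coe, MvPowerSeries.coeff_truncTotal _ (by
        rwa [Finsupp.degree_eq_sum]), sub_self]
  have hadd : ∀ a b : C, ∀ c : ℝ, ‖a‖ ≤ c → ‖b‖ ≤ c → ‖a + b‖ ≤ c := fun a b c ha hb =>
    le_trans (IsUltrametricDist.norm_add_le_max a b) (max_le ha hb)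
  have e : P.chi a - χ a = P.chi (a - f) + -χ (a - f) := by
    rw [map_sub, map_sub, hf]; ring
  rw [e]
  refine hadd _ _ _ ?_ ?_
  · exact norm_le_pow_of_mem hr P.chi_small hadd N _ hm (norm_chi_le hn1 P)
  · rw [norm_neg]
    refine norm_le_pow_of_mem hr (fun b hb => norm_valueHom_le_of_mem _ _ hr
      (inv_prime_lt_one (p := p)).le (norm_coord_le P) hb) hadd N _ hm fun b => ?_
    rw [valueHom_apply]
    exact Eval.norm_mveval_le_of (norm_emb_le _) _ zero_le_one fun k _ =>
      Finset.prod_le_one (fun i _ => pow_nonneg (norm_nonneg _) _) fun i _ =>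
        pow_le_one₀ (norm_nonneg _) (norm_coord_lt P i).le

/-- The shift of the coordinates given by η. -/
def shiftVec (n h : ℕ) {C : Type} [Zero C] (η : Fin (n - h) → C) (i : Fin (n - 1)) : C :=
  if hi : h ≤ i.1 + 1 then η ⟨i.1 + 1 - h, by have := i.2; omega⟩ else 0

omit [IsUltrametricDist C] [CompleteSpace C] in
theorem norm_shiftVec_le (η : Fin (n - h) → C) (i : Fin (n - 1)) :
    ‖shiftVec n h η i‖ ≤ ‖η‖ := by
  rw [shiftVec]; split_ifs
  · exact norm_le_pi_norm η _
  · simp

omit [IsUltrametricDist C] [CompleteSpace C] in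
theorem coord_of_isShift (hh : h ≤ n) (P P' : GoodPoint p n h C) (η : Fin (n - h) → C)
    (hs : IsShift P η P') : coord P' = fun i => coord P i + shiftVec n h η i := by
  funext i
  rw [shiftVec, coord, coord]
  split_ifs with hi
  · have hlt : i.1 + 1 - h < n - h := by have := i.2; omega
    have := hs.2 ⟨i.1 + 1 - h, hlt⟩
    simp only [show h + (i.1 + 1 - h) = i.1 + 1 by omega] at this
    exact this
  · rw [P'.chi_zero _ (by omega), P.chi_zero _ (by omega), add_zero]

theorem exists_shift (hh : 1 ≤ h) (hn : h < n) (P : GoodPoint p n h C) (η : Fin (n - h) → C)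
    (h1 : ‖η‖ ≤ (p : ℝ)⁻¹) (h2 : ‖η‖ < ‖P.chi (vv p n h)‖) :
    ∃ P', IsShift P η P' := by
  set y : Fin (n - 1) → C := fun i => coord P i + shiftVec n h η i with hy
  have hle : ∀ i, ‖y i‖ ≤ (p : ℝ)⁻¹ := fun i =>
    le_trans (IsUltrametricDist.norm_add_le_max _ _)
      (max_le (norm_coord_le P i) ((norm_shiftVec_le η i).trans h1))
  have hlt : ∀ i, ‖y i‖ < 1 := fun i => (hle i).trans_lt (inv_prime_lt_one (p := p))
  have hX : ∀ i : Fin (n - 1), valueHom P.emb y hlt (vv p n (i.1 + 1)) = y i := fun i => by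
    rw [vv_succ, valueHom_apply, red, MvPowerSeries.map_X, Eval.mveval_X]
  have hv : ∀ m, 1 ≤ m → (hm : m < n) → valueHom P.emb y hlt (vv p n m) =
      y ⟨m - 1, by omega⟩ := fun m h1' hm => by
    have := hX ⟨m - 1, by omega⟩
    simpa [show m - 1 + 1 = m by omega] using this
  refine ⟨{
    chi := valueHom P.emb y hlt
    emb := P.emb
    chi_constants := fun a => by
      rw [valueHom_apply, constants, red, MvPowerSeries.map_C, Eval.mveval_C]
    chi_zero := fun m hm => ?_
    chi_h := ?_
    chi_small := fun a ha => norm_valueHom_le_of_mem _ _ (by positivity)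
      (inv_prime_lt_one (p := p)).le hle ha }, rfl, fun i => ?_⟩
  · rcases Nat.eq_zero_or_pos m with rfl | h0
    · have : vv p n 0 = 0 := by rw [vv, dif_neg (by omega), if_neg (by omega)]
      rw [this, map_zero]
    · rw [hv m h0 (by omega), hy]
      simp only [coord, show m - 1 + 1 = m by omega, P.chi_zero m hm, shiftVec,
        dif_neg (show ¬ h ≤ m by omega), add_zero]
  · rw [hv h hh hn, hy]
    simp only [coord, show h - 1 + 1 = h by omega]
    intro h0
    have he : P.chi (vv p n h) = -shiftVec n h η ⟨h - 1, by omega⟩ :=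
      eq_neg_of_add_eq_zero_left h0
    have := norm_shiftVec_le η (⟨h - 1, by omega⟩ : Fin (n - 1))
    rw [← norm_neg, ← he] at this
    exact absurd this (not_le.2 h2)
  · have hi := i.2
    show valueHom P.emb y hlt (vv p n (h + i)) = _
    rw [hv (h + i) (by omega) (by omega), hy]
    simp only [coord, show h + i.1 - 1 + 1 = h + i.1 by omega, shiftVec,
      dif_pos (show h ≤ h + i.1 by omega)]
    congr 2
    exact Fin.ext (by simp)

end Vale.Agent.P217.EF
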