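import Vale.Agent.P217.Jac.Main
import Vale.Agent.P217.EF.Cover2

/-!
# P217, block EF: the Jacobian part, with both pins discharged
-/

namespace Vale.Agent.P217.EF

/-- The Jacobian part: the roots, their rank and their independence over the p-adic integers. -/
theorem jacPin : JacPin := jacPin_of Vale.Agent.P217.coeffPin coverPin

end Vale.Agent.P217.EF
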