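import Vale.Agent.P217.Jac.Rows

/-!
# P217, block EF, Jacobian part: linear parts in η of elements of the kernel of the covering map
-/

noncomputable section

namespace Vale.Agent.P217.EF

variable {p : ℕ} [Fact p.Prime] {n h : ℕ}
variable {C : Type} [NontriviallyNormedField C] [IsUltrametricDist C] [CompleteSpace C]
  [IsAlgClosed C] [CharP C p]

/-- The map from the p-adic integers to C. -/
def jZ (p : ℕ) [Fact p.Prime] (C : Type) [NontriviallyNormedField C] [CharP C p] : ℤ_[p] →+* C :=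
  (ZMod.castHom (dvd_refl p) C).comp PadicInt.toZMod

theorem hondaIn_eq (G : FormalGroup ℤ_[p]) : hondaIn G C = G.map (jZ p C) := rfl

omit [IsUltrametricDist C] [CompleteSpace C] [IsAlgClosed C] in
theorem jZ_fixed (r : ℤ_[p]) (k : ℕ) : jZ p C r ^ p ^ k = jZ p C r := by
  rw [jZ, RingHom.comp_apply, ← map_pow, ZMod.pow_card_pow]

omit [IsUltrametricDist C] [CompleteSpace C] [IsAlgClosed C] in
theorem norm_jZ_le (r : ℤ_[p]) : ‖jZ p C r‖ ≤ 1 :=
  norm_eq_of_fixed (le_refl 1) (jZ_fixed r 1)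

theorem gadd_honda_jac (G : FormalGroup ℤ_[p]) (a b : C) :
    gadd (hondaIn G C) a b = vadd (jZ p C) G a b := gadd_map _ _ _ _

theorem norm_pointSum_lt (G : FormalGroup ℤ_[p]) : ∀ {l : List C}, (∀ a ∈ l, ‖a‖ < 1) →
    ‖pointSum (hondaIn G C) l‖ < 1
  | [], _ => by simp [pointSum]
  | a :: l, hl => by
    rw [pointSum, gadd_honda_jac]
    exact norm_vadd_lt norm_jZ_le G (hl a (List.mem_cons_self ..))
      (norm_pointSum_lt G fun b hb => hl b (List.mem_cons_of_mem _ hb))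

theorem norm_nPoint_honda (G : FormalGroup ℤ_[p]) (k : ℕ) {z : C} (hz : ‖z‖ < 1) :
    ‖nPoint (hondaIn G C) k z‖ < 1 :=
  norm_pointSum_lt G fun a ha => by rw [List.eq_of_mem_replicate ha]; exact hz

theorem pointSum_pow (G : FormalGroup ℤ_[p]) (m : ℕ) : ∀ {l : List C}, (∀ a ∈ l, ‖a‖ < 1) →
    pointSum (hondaIn G C) l ^ p ^ m = pointSum (hondaIn G C) (l.map fun a => a ^ p ^ m)
  | [], _ => by simp [pointSum, zero_pow (pow_ne_zero _ (Fact.out : p.Prime).ne_zero)]
  | a :: l, hl => by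
    have hl' : ∀ b ∈ l, ‖b‖ < 1 := fun b hb => hl b (List.mem_cons_of_mem _ hb)
    rw [List.map_cons, pointSum, pointSum, gadd_honda_jac, gadd_honda_jac, vadd,
      mveval_pow_char (p := p) norm_jZ_le _
        (norm_pair_lt (hl a (List.mem_cons_self ..)) (norm_pointSum_lt G hl')) m
        (fun r => jZ_fixed r m), vadd, ← pointSum_pow G m hl']
    congr 1
    funext i
    fin_cases i <;> rfl

theorem nPoint_add (G : FormalGroup ℤ_[p]) {z : C} (hz : ‖z‖ < 1) (a b : ℕ) :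
    nPoint (hondaIn G C) (a + b) z =
      gadd (hondaIn G C) (nPoint (hondaIn G C) a z) (nPoint (hondaIn G C) b z) := by
  induction a with
  | zero =>
    rw [zero_add, gadd_honda_jac, show nPoint (hondaIn G C) 0 z = 0 from rfl,
      zero_vadd norm_jZ_le G (norm_nPoint_honda G b hz)]
  | succ a ih =>
    have e : ∀ k, nPoint (hondaIn G C) (k + 1) z =
        gadd (hondaIn G C) z (nPoint (hondaIn G C) k z) := fun k => rfl
    rw [show a + 1 + b = a + b + 1 by omega, e, e, ih, gadd_honda_jac, gadd_honda_jac, gadd_honda_jac,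
      gadd_honda_jac, vadd_assoc norm_jZ_le G hz (norm_nPoint_honda G a hz) (norm_nPoint_honda G b hz)]

theorem nPoint_mul_pow {G : FormalGroup ℤ_[p]} (hp : ∀ z : C, ‖z‖ < 1 →
      nPoint (hondaIn G C) p z = z ^ p ^ n) {z : C} (hz : ‖z‖ < 1) (b : ℕ) :
    ∀ k : ℕ, nPoint (hondaIn G C) (b * p ^ k) z = nPoint (hondaIn G C) b z ^ p ^ (n * k)
  | 0 => by simp
  | k + 1 => by
    have step : ∀ c, nPoint (hondaIn G C) (c * p) z = nPoint (hondaIn G C) c z ^ p ^ n := by
      intro c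
      induction c with
      | zero => simp [nPoint, pointSum, zero_pow (pow_ne_zero _ (Fact.out : p.Prime).ne_zero)]
      | succ c ih =>
        rw [add_mul, one_mul, nPoint_add G hz, ih, hp z hz, nPoint_add G hz c 1,
          gadd_honda_jac, gadd_honda_jac]
        rw [vadd, vadd, mveval_pow_char (p := p) norm_jZ_le _
          (norm_pair_lt (norm_nPoint_honda G c hz) (norm_nPoint_honda G 1 hz)) n
          (fun r => jZ_fixed r n)]
        congr 1
        funext i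
        fin_cases i
        · rfl
        · show z ^ p ^ n = nPoint (hondaIn G C) 1 z ^ p ^ n
          rw [show nPoint (hondaIn G C) 1 z = gadd (hondaIn G C) z 0 from rfl, gadd_honda_jac,
            vadd_zero norm_jZ_le G hz]
    rw [pow_succ, ← mul_assoc, step, nPoint_mul_pow hp hz b k, ← pow_mul, ← pow_add]
    rw [mul_add, mul_one]

/-- The linear part of the covering map at ζ in η. -/
def IsLin (F : FormalGroup (E0 p n)) (P : GoodPoint p n h C) (ζ : C) (v : Fin (n - h) → C) :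
    Prop :=
  ∃ K δ : ℝ, 0 < δ ∧ ∀ η P', IsShift P η P' → ‖η‖ ≤ δ →
    ‖piMap F P' ζ - ∑ i, η i * v i‖ ≤ K * ‖η‖ ^ 2

variable {Gn : FormalGroup ℤ_[p]} {F : FormalGroup (E0 p n)}
  (hcov : ∀ P : GoodPoint p n h C, CoverFacts Gn F P)
  (hco : ∀ k, ¬ p ^ h ∣ k → cP F k ∈ heightIdeal p n h)
  (P : GoodPoint p n h C)

include hcov hco

theorem piMap_zero_jac (hn1 : 1 ≤ n) (hh : 1 ≤ h) : piMap F P 0 = 0 := by
  have h0 : ‖(0 : C)‖ < 1 := by simp
  have hpw := (hcov P).pi_pow 0 h0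
  rw [zero_pow (pow_ne_zero _ (Fact.out : p.Prime).ne_zero)] at hpw
  by_contra hne
  have hle := norm_pMul_le_jac hh F P hco hn1 ((hcov P).pi_small 0 h0)
  rw [← hpw] at hle
  have : ‖piMap F P 0‖ ^ p ^ h < ‖piMap F P 0‖ :=
    pow_lt_self_of_lt_one₀ (norm_pos_iff.2 hne) ((hcov P).pi_small 0 h0)
      (Nat.one_lt_pow (by omega) (Fact.out : p.Prime).one_lt)
  linarith

theorem isLin_zero (hn1 : 1 ≤ n) (hh : 1 ≤ h) : IsLin F P 0 0 :=
  ⟨0, 1, one_pos, fun η P' _ _ => by simp [piMap_zero_jac hcov hco P' hn1 hh]⟩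

theorem isLin_root (hn1 : 1 ≤ n) (hh : 1 ≤ h) (hn : h < n) {z : C} (hz : ‖z‖ < 1)
    (hy0 : pMul F P (piMap F P z) = 0) :
    IsLin F P (z ^ p ^ n) (Row hh F P (piMap F P z ^ p ^ h)) := by
  obtain ⟨K, δ, hδ, hK⟩ := (hcov P).pi_lipschitz
  refine ⟨max 1 (|K| ^ p ^ h), min δ (1 / 2), lt_min hδ (by norm_num), fun η P' hs hη => ?_⟩
  have hη1 : ‖η‖ < 1 := lt_of_le_of_lt (hη.trans (min_le_right _ _)) (by norm_num)
  rw [(hcov P').pi_pow z hz]
  have a1 := pMul_shift hh F P hco hn1 hn hs hη1 ((hcov P).pi_small z hz) hy0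
  have a2 := norm_pMul_sub_le hh F P' hco hn1 ((hcov P').pi_small z hz) ((hcov P).pi_small z hz)
  have a3 : ‖piMap F P' z - piMap F P z‖ ^ p ^ h ≤ |K| ^ p ^ h * ‖η‖ ^ 2 := by
    have h1 := (hK η P' hs (hη.trans (min_le_left _ _)) z hz).trans
      (mul_le_mul_of_nonneg_right (le_abs_self K) (norm_nonneg η))
    refine (pow_le_pow_left₀ (norm_nonneg _) h1 _).trans ?_
    rw [mul_pow]
    exact mul_le_mul_of_nonneg_left (pow_le_pow_of_le_one (norm_nonneg _) hη1.le
      (Nat.one_lt_pow (by omega) (Fact.out : p.Prime).one_lt)) (by positivity)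
  rw [show pMul F P' (piMap F P' z) - ∑ i, η i * Row hh F P (piMap F P z ^ p ^ h) i =
      (pMul F P' (piMap F P z) - ∑ i, η i * Row hh F P (piMap F P z ^ p ^ h) i) +
      (pMul F P' (piMap F P' z) - pMul F P' (piMap F P z)) by ring]
  refine (IsUltrametricDist.norm_add_le_max _ _).trans (max_le ?_ ?_)
  · exact a1.trans (le_mul_of_one_le_left (sq_nonneg _) (le_max_left _ _))
  · exact (a2.trans a3).trans (mul_le_mul_of_nonneg_right (le_max_right _ _) (sq_nonneg _))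

theorem isLin_add (hn1 : 1 ≤ n) {a b : C} (ha : ‖a‖ < 1) (hb : ‖b‖ < 1)
    {v w : Fin (n - h) → C} (hv : IsLin F P a v) (hw : IsLin F P b w) :
    IsLin F P (gadd (hondaIn Gn C) a b) (v + w) := by
  obtain ⟨K1, δ1, hδ1, h1⟩ := hv
  obtain ⟨K2, δ2, hδ2, h2⟩ := hw
  set B := max 1 (max (max |K1| |K2|) (max ‖v‖ ‖w‖)) with hB
  have hB1 : 1 ≤ B := le_max_left _ _
  have hB0 : 0 < B := lt_of_lt_of_le one_pos hB1
  refine ⟨B ^ 2, min (min δ1 δ2) B⁻¹, lt_min (lt_min hδ1 hδ2) (inv_pos.2 hB0),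
    fun η P' hs hη => ?_⟩
  have hηB : B * ‖η‖ ≤ 1 := by
    have := mul_le_mul_of_nonneg_left (hη.trans (min_le_right _ _)) hB0.le
    rwa [mul_inv_cancel₀ hB0.ne'] at this
  have hη1 : ‖η‖ ≤ 1 := le_trans (le_mul_of_one_le_left (norm_nonneg _) hB1) hηB
  have e1 := h1 η P' hs (hη.trans ((min_le_left _ _).trans (min_le_left _ _)))
  have e2 := h2 η P' hs (hη.trans ((min_le_left _ _).trans (min_le_right _ _)))
  have hsum : ∀ u : Fin (n - h) → C, ‖u‖ ≤ B → ‖∑ i, η i * u i‖ ≤ B * ‖η‖ := fun u hu => by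
    refine IsUltrametricDist.norm_sum_le_of_forall_le_of_nonneg (by positivity) fun i _ => ?_
    rw [norm_mul, mul_comm]
    exact mul_le_mul ((norm_le_pi_norm u i).trans hu) (norm_le_pi_norm η i) (norm_nonneg _) hB0.le
  have hbd : ∀ (x : C) (u : Fin (n - h) → C) (K : ℝ), |K| ≤ B → ‖u‖ ≤ B →
      ‖x - ∑ i, η i * u i‖ ≤ K * ‖η‖ ^ 2 → ‖x‖ ≤ B * ‖η‖ := fun x u K hK hu hx => by
    rw [← sub_add_cancel x (∑ i, η i * u i)]
    refine (IsUltrametricDist.norm_add_le_max _ _).trans (max_le (hx.trans ?_) (hsum u hu))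
    refine (mul_le_mul_of_nonneg_right ((le_abs_self K).trans hK) (sq_nonneg _)).trans ?_
    exact mul_le_mul_of_nonneg_left (pow_le_of_le_one (norm_nonneg _) hη1 two_ne_zero) hB0.le
  have hA := hbd _ v K1 (le_trans (le_trans (le_max_left _ _) (le_max_left _ _)) (le_max_right _ _))
    (le_trans (le_trans (le_max_left _ _) (le_max_right _ _)) (le_max_right _ _)) e1
  have hBd := hbd _ w K2 (le_trans (le_trans (le_max_right _ _) (le_max_left _ _)) (le_max_right _ _))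
    (le_trans (le_trans (le_max_right _ _) (le_max_right _ _)) (le_max_right _ _)) e2
  rw [(hcov P').pi_add a b ha hb, lawAt, gadd_map]
  have hv2 := norm_vadd_sub_add_le (norm_chi_le hn1 P') F hηB hA hBd ((hcov P').pi_small a ha)
    ((hcov P').pi_small b hb)
  rw [show vadd P'.chi F (piMap F P' a) (piMap F P' b) - ∑ i, η i * (v + w) i =
      (vadd P'.chi F (piMap F P' a) (piMap F P' b) - (piMap F P' a + piMap F P' b)) +
      ((piMap F P' a - ∑ i, η i * v i) + (piMap F P' b - ∑ i, η i * w i)) by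
    simp only [Pi.add_apply, mul_add, Finset.sum_add_distrib]; ring, ← mul_pow]
  refine (IsUltrametricDist.norm_add_le_max _ _).trans (max_le hv2 ?_)
  have hKB : ∀ K, |K| ≤ B → K * ‖η‖ ^ 2 ≤ (B * ‖η‖) ^ 2 := fun K hK => by
    rw [mul_pow]
    exact mul_le_mul_of_nonneg_right (((le_abs_self K).trans hK).trans
      (le_self_pow₀ hB1 two_ne_zero)) (sq_nonneg _)
  exact (IsUltrametricDist.norm_add_le_max _ _).trans (max_le
    (e1.trans (hKB K1 (le_trans (le_trans (le_max_left _ _) (le_max_left _ _)) (le_max_right _ _))))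
    (e2.trans (hKB K2 (le_trans (le_trans (le_max_right _ _) (le_max_left _ _)) (le_max_right _ _)))))

omit hcov hco in
theorem isLin_unique (hh : 1 ≤ h) (hn : h < n) {ζ : C} {v w : Fin (n - h) → C}
    (hv : IsLin F P ζ v) (hw : IsLin F P ζ w) : v = w := by
  obtain ⟨K1, δ1, hδ1, h1⟩ := hv
  obtain ⟨K2, δ2, hδ2, h2⟩ := hw
  funext i
  by_contra hne
  have hD : 0 < ‖v i - w i‖ := norm_pos_iff.2 (sub_ne_zero.2 hne)
  set M := max (max |K1| |K2|) 1 with hM
  have hM0 : 0 < M := lt_of_lt_of_le one_pos (le_max_right _ _)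
  have hpos : 0 < min (min δ1 δ2) (min (min (p : ℝ)⁻¹ ‖P.chi (vv p n h)‖) (‖v i - w i‖ / M)) :=
    lt_min (lt_min hδ1 hδ2) (lt_min (lt_min inv_prime_pos (norm_pos_iff.2 P.chi_h))
      (div_pos hD hM0))
  obtain ⟨s, hs0, hs⟩ := NormedField.exists_norm_lt C hpos
  simp only [lt_min_iff] at hs
  obtain ⟨⟨hsd1, hsd2⟩, ⟨hsp, hsx⟩, hsD⟩ := hs
  set η : Fin (n - h) → C := Pi.single i s with hη
  have hηn : ‖η‖ = ‖s‖ := by
    refine le_antisymm ((pi_norm_le_iff_of_nonneg (norm_nonneg _)).2 fun l => ?_) ?_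
    · rcases eq_or_ne l i with rfl | hl
      · simp [hη]
      · simp [hη, Pi.single_eq_of_ne hl]
    · simpa [hη] using norm_le_pi_norm η i
  obtain ⟨P', hP'⟩ := exists_shift hh hn P η (by rw [hηn]; exact hsp.le) (by rw [hηn]; exact hsx)
  have e1 := h1 η P' hP' (by rw [hηn]; exact hsd1.le)
  have e2 := h2 η P' hP' (by rw [hηn]; exact hsd2.le)
  have hval : ∀ u : Fin (n - h) → C, ∑ l, η l * u l = s * u i := fun u => by
    rw [Finset.sum_eq_single i (fun l _ hl => by simp [hη, Pi.single_eq_of_ne hl]) (by simp)]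
    simp [hη]
  rw [hval, hηn] at e1 e2
  have hle : ∀ K, |K| ≤ max |K1| |K2| → K * ‖s‖ ^ 2 ≤ M * ‖s‖ ^ 2 := fun K hK =>
    mul_le_mul_of_nonneg_right (((le_abs_self K).trans hK).trans (le_max_left _ _)) (sq_nonneg _)
  have e3 : ‖s‖ * ‖v i - w i‖ ≤ M * ‖s‖ ^ 2 := by
    rw [← norm_mul, show s * (v i - w i) =
      (piMap F P' ζ - s * w i) + -(piMap F P' ζ - s * v i) by ring]
    refine (IsUltrametricDist.norm_add_le_max _ _).trans (max_le ?_ ?_)
    · exact e2.trans (hle K2 (le_max_right _ _))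
    · rw [norm_neg]; exact e1.trans (hle K1 (le_max_left _ _))
  rw [lt_div_iff₀ hM0] at hsD
  nlinarith

theorem lin_pointSum (hn1 : 1 ≤ n) (hh : 1 ≤ h) : ∀ {l : List (C × (Fin (n - h) → C))},
    (∀ a ∈ l, ‖a.1‖ < 1 ∧ piMap F P a.1 = 0 ∧ IsLin F P a.1 a.2) →
      piMap F P (pointSum (hondaIn Gn C) (l.map Prod.fst)) = 0 ∧
        IsLin F P (pointSum (hondaIn Gn C) (l.map Prod.fst)) (l.map Prod.snd).sum
  | [], _ => ⟨piMap_zero_jac hcov hco P hn1 hh, isLin_zero hcov hco P hn1 hh⟩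
  | a :: l, hl => by
    obtain ⟨ha, ha0, hal⟩ := hl a (List.mem_cons_self ..)
    have hl' : ∀ b ∈ l, _ := fun b hb => hl b (List.mem_cons_of_mem _ hb)
    obtain ⟨hr0, hrl⟩ := lin_pointSum hn1 hh hl'
    have hsm : ‖pointSum (hondaIn Gn C) (l.map Prod.fst)‖ < 1 :=
      norm_pointSum_lt Gn fun b hb => by
        obtain ⟨c, hc, rfl⟩ := List.mem_map.1 hb
        exact (hl' c hc).1
    rw [List.map_cons, List.map_cons, pointSum, List.sum_cons]
    refine ⟨?_, isLin_add hcov hco P hn1 ha hsm hal hrl⟩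
    rw [(hcov P).pi_add _ _ ha hsm, ha0, hr0, lawAt, gadd_map]
    exact vadd_zero (norm_chi_le hn1 P) F (by simp)

end Vale.Agent.P217.EF
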