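import Vale.Agent.P217.Jac.Lin

/-!
# P217, block EF, Jacobian part: rank and independence
-/

noncomputable section

namespace Vale.Agent.P217.EF

variable {p : ℕ} [Fact p.Prime] {n h : ℕ}

/-- Elements of the height ideal have no linear terms in the free variables. -/
theorem red_linear {h' : ℕ} (hh' : 1 ≤ h') (hn' : h' ≤ n) {a : E0 p n} (ha : a ∈ heightIdeal p n h') :
    MvPowerSeries.constantCoeff (red p n a) = 0 ∧
      ∀ l : Fin (n - 1), h' ≤ l.1 + 1 →
        MvPowerSeries.coeff (Finsupp.single l 1) (red p n a) = 0 := by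
  classical
  rw [heightIdeal, if_neg (by omega)] at ha
  induction ha using Submodule.span_induction with
  | mem x hx =>
    rcases hx with rfl | ⟨i, hi1, hi, rfl⟩
    · rw [map_natCast, ← map_natCast (MvPowerSeries.C : GaloisField p n →+* _) p,
        CharP.cast_eq_zero, map_zero]
      simp
    · rw [show vv p n i = MvPowerSeries.X ⟨i - 1, by omega⟩ by rw [vv, dif_pos ⟨hi1, by omega⟩],
        red, MvPowerSeries.map_X]
      refine ⟨MvPowerSeries.constantCoeff_X _, fun l hl => ?_⟩
      rw [MvPowerSeries.coeff_X, if_neg]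
      intro e
      have := congrArg Fin.val (Finsupp.single_left_injective one_ne_zero e)
      simp only at this
      omega
  | zero => simp
  | add x y _ _ hx hy =>
    exact ⟨by rw [map_add, map_add, hx.1, hy.1, add_zero],
      fun l hl => by rw [map_add, map_add, hx.2 l hl, hy.2 l hl, add_zero]⟩
  | smul r x _ hx =>
    rw [smul_eq_mul, map_mul]
    refine ⟨by rw [map_mul, hx.1, mul_zero], fun l hl => ?_⟩
    rw [MvPowerSeries.coeff_mul, Finsupp.antidiagonal_single]
    refine Finset.sum_eq_zero fun ab hab => ?_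
    obtain ⟨⟨i, j⟩, hij, rfl⟩ := Finset.mem_map.1 hab
    rw [Finset.HasAntidiagonal.mem_antidiagonal] at hij
    simp only [Function.Embedding.prodMap, Function.Embedding.coeFn_mk, Prod.map_apply]
    rcases Nat.eq_zero_or_pos j with rfl | hj
    · simp only [Finsupp.single_zero, MvPowerSeries.coeff_zero_eq_constantCoeff_apply, hx.1,
        mul_zero]
    · obtain rfl : j = 1 := by omega
      rw [hx.2 l hl, mul_zero]

variable {C : Type} [NontriviallyNormedField C] [IsUltrametricDist C] [CompleteSpace C]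
  [IsAlgClosed C] [CharP C p]

theorem heightIdeal_le_maximal (hn1 : 1 ≤ n) :
    heightIdeal p n n ≤ IsLocalRing.maximalIdeal (E0 p n) := by
  rw [heightIdeal, if_neg (by omega), Ideal.span_le]
  rintro x (rfl | ⟨i, -, hi, rfl⟩)
  · exact p_mem_maximal
  · exact vv_mem_maximal hi

/-- The Jacobian part. -/
theorem jacPin_of (hA : CoeffPin) (hC : CoverPin) : JacPin := by
  intro p n h _ C _ _ _ _ _ Gn hh hn hGn F hF P
  classical
  have hn1 : 1 ≤ n := by omega
  have hp := (Fact.out : p.Prime)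
  obtain ⟨hA1, hA2⟩ := hA p n hn1
  have hA1' : ∀ h', 1 ≤ h' → h' ≤ n →
      (∀ k, ¬ p ^ h' ∣ k → cP F k ∈ heightIdeal p n h') ∧
        cP F (p ^ h') - vv p n h' ∈ heightIdeal p n h' := hA1 F hF
  obtain ⟨hco, hv⟩ := hA1' h hh hn.le
  have hpz : ∀ z : C, ‖z‖ < 1 → nPoint (hondaIn Gn C) p z = z ^ p ^ n :=
    fun z hz => hA2 Gn hGn C z hz
  have hcov : ∀ P : GoodPoint p n h C, CoverFacts Gn F P :=
    fun P => hC p n h C Gn hh hn hGn F hF P
  set g := gser hn1 F P with hg
  have hQn : ∀ k : ℕ, p ^ h * p ^ k = p ^ (h + k) := fun k => (pow_add p h k).symm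
  -- low coefficients and the leading one
  obtain ⟨hcon, hvn⟩ := hA1' n hn1 le_rfl
  have hlow : ∀ k < p ^ (n - h), ‖((PowerSeries.coeff k g : unitBall C) : C)‖ ≤ (p : ℝ)⁻¹ := by
    intro k hk
    rw [hg, gser, PowerSeries.coeff_mk]
    show ‖P.chi (cP F (p ^ h * k))‖ ≤ _
    rcases Nat.eq_zero_or_pos k with rfl | hk0
    · rw [mul_zero, cP_zero, map_zero, norm_zero]; exact inv_prime_pos.le
    refine P.chi_small _ (heightIdeal_le_maximal hn1 (hcon _ fun hd => ?_))
    have hlt : p ^ h * k < p ^ n := by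
      rw [show n = h + (n - h) by omega, pow_add]
      exact Nat.mul_lt_mul_of_pos_left hk (pow_pos hp.pos _)
    exact absurd (Nat.le_of_dvd (Nat.mul_pos (pow_pos hp.pos _) hk0) hd) (not_le.2 hlt)
  have hlead : ‖((PowerSeries.coeff (p ^ (n - h)) g : unitBall C) : C)‖ = 1 := by
    rw [hg, gser, PowerSeries.coeff_mk]
    show ‖P.chi (cP F (p ^ h * p ^ (n - h)))‖ = 1
    rw [hQn, show h + (n - h) = n by omega]
    have hsmall := P.chi_small _ (heightIdeal_le_maximal hn1 hvn)
    rw [map_sub, chi_vv_n] at hsmall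
    have e := IsUltrametricDist.norm_add_eq_max_of_norm_ne_norm (x := (1 : C))
      (y := P.chi (cP F (p ^ n)) - 1) (by
        rw [norm_one]; exact (lt_of_le_of_lt hsmall inv_prime_lt_one).ne')
    rw [add_sub_cancel, norm_one, max_eq_left (hsmall.trans inv_prime_lt_one.le)] at e
    exact e
  -- surjective point selection
  have hpre : ∀ w : C, ‖w‖ < 1 → ∃ z, ‖z‖ < 1 ∧ piMap F P z ^ p ^ h = w := by
    intro w hw
    set Y := (frobeniusEquiv C p).symm^[h] w
    have hY : Y ^ p ^ h = w := iterate_frobeniusEquiv_symm_pow_p_pow C p w h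
    have hY1 : ‖Y‖ < 1 := by
      rw [← pow_lt_one_iff_of_nonneg (norm_nonneg Y) (pow_ne_zero h hp.ne_zero), ← norm_pow, hY]
      exact hw
    obtain ⟨z, hz, hzY⟩ := (hcov P).pi_surj Y hY1
    exact ⟨z, hz, by rw [hzY, hY]⟩
  -- simplicity of the roots
  have hsimple : ∀ w, ‖w‖ < 1 → peval (unitBall C).subtype g w = 0 →
      peval (unitBall C).subtype (PowerSeries.derivative _ g) w ≠ 0 := by
    intro w hw hgw hder
    obtain ⟨z0, hz0, hz0w⟩ := hpre w hw
    set Y := piMap F P z0
    have hY1 : ‖Y‖ < 1 := (hcov P).pi_small z0 hz0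
    have hY0 : pMul F P Y = 0 := by rw [pMul_eq hn1 hh F P hco, hz0w, ← hg, hgw]
    set u := Taylor.dval P.chi F.toPowerSeries 1 ![Y, 0]
    have hxh : 0 < ‖P.chi (vv p n h)‖ := norm_pos_iff.2 P.chi_h
    obtain ⟨z, hz0', hz⟩ := NormedField.exists_norm_lt C (lt_min hxh one_pos)
    obtain ⟨hzx, hz1⟩ := lt_min_iff.1 hz
    have ht := Taylor.norm_taylor (norm_chi_le hn1 P) F.toPowerSeries (norm_nonneg z) hz1
      (x := ![Y, 0]) (t := ![0, z]) (norm_pair_lt hY1 (by simp))
      (norm_pair_le (by simp) le_rfl)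
    have hxt : (fun l => (![Y, 0] : Fin 2 → C) l + ![0, z] l) = ![Y, z] := by
      funext l; fin_cases l <;> simp
    rw [hxt, Fin.sum_univ_two] at ht
    simp only [Matrix.cons_val_zero, Matrix.cons_val_one, zero_mul, zero_add] at ht
    change ‖vadd P.chi F Y z - vadd P.chi F Y 0 - z * u‖ ≤ _ at ht
    rw [vadd_zero (norm_chi_le hn1 P) F hY1] at ht
    set A := vadd P.chi F Y z
    have hA1' : ‖A‖ < 1 := norm_vadd_lt (norm_chi_le hn1 P) F hY1 hz1
    have hadd := (hcov P).pMul_add Y z hY1 hz1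
    rw [lawAt, gadd_map, gadd_map, hY0, zero_vadd (norm_chi_le hn1 P) F
      (lt_of_le_of_lt (norm_pMul_le_jac hh F P hco hn1 hz1)
        (pow_lt_one₀ (norm_nonneg _) hz1 (pow_ne_zero _ hp.ne_zero)))] at hadd
    change pMul F P A = pMul F P z at hadd
    rw [pMul_eq hn1 hh F P hco, pMul_eq hn1 hh F P hco, ← hg] at hadd
    set s := A ^ p ^ h - Y ^ p ^ h
    have hu : ‖u‖ ≤ 1 := Taylor.norm_dval_le (norm_chi_le hn1 P) _ _
      fun l => (norm_pair_lt hY1 (by simp) l).le
    have hAY : ‖A - Y‖ ≤ ‖z‖ := by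
      rw [← sub_add_cancel (A - Y) (z * u)]
      refine (IsUltrametricDist.norm_add_le_max _ _).trans (max_le ?_ ?_)
      · exact ht.trans (pow_le_of_le_one (norm_nonneg _) hz1.le two_ne_zero)
      · rw [norm_mul]; exact mul_le_of_le_one_right (norm_nonneg _) hu
    have hs : ‖s‖ ≤ ‖z‖ ^ p ^ h := by
      rw [show s = A ^ p ^ h - Y ^ p ^ h from rfl, ← sub_pow_char_pow, norm_pow]
      exact pow_le_pow_left₀ (norm_nonneg _) hAY _
    have hzQ : ‖z‖ ^ p ^ h < 1 := pow_lt_one₀ (norm_nonneg _) hz1 (pow_ne_zero _ hp.ne_zero)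
    have t1 := Weier.norm_taylor_one Weier.jA_le g hw (lt_of_le_of_lt hs hzQ)
    rw [hgw, hder, zero_mul, sub_zero, sub_zero] at t1
    rw [show w + s = A ^ p ^ h by rw [← hz0w]; ring, hadd] at t1
    have t2 := Weier.norm_taylor_one Weier.jA_le g (show ‖(0 : C)‖ < 1 by simp)
      (s := z ^ p ^ h) (by rw [norm_pow]; exact hzQ)
    have hz00 : peval (unitBall C).subtype g 0 = 0 := by
      have := Eval.norm_peval_le (y := (0 : C)) Weier.jA_le (by simp) g
        (gser_constantCoeff hn1 F P)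
      simpa using this
    have hd0 : peval (unitBall C).subtype (PowerSeries.derivative _ g) 0 = P.chi (vv p n h) := by
      rw [peval, tsum_eq_single 0 fun k hk => by rw [zero_pow hk, mul_zero], pow_zero, mul_one,
        PowerSeries.coeff_derivative, Nat.cast_zero, zero_add, zero_add, mul_one]
      exact coeff_one_gser hh F P hn1 hv
    rw [zero_add, hz00, hd0, sub_zero, norm_pow] at t2
    have hx : ‖P.chi (vv p n h) * z ^ p ^ h‖ ≤ (‖z‖ ^ p ^ h) ^ 2 := by
      set G := peval (unitBall C).subtype g (z ^ p ^ h)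
      rw [show P.chi (vv p n h) * z ^ p ^ h = G + -(G - P.chi (vv p n h) * z ^ p ^ h) by ring]
      refine (IsUltrametricDist.norm_add_le_max _ _).trans (max_le ?_ (by rwa [norm_neg]))
      exact t1.trans (pow_le_pow_left₀ (norm_nonneg _) hs 2)
    rw [norm_mul, norm_pow, sq] at hx
    have hzpos : 0 < ‖z‖ ^ p ^ h := pow_pos hz0' _
    have := le_of_mul_le_mul_right hx hzpos
    have hzle : ‖z‖ ^ p ^ h ≤ ‖z‖ :=
      pow_le_of_le_one (norm_nonneg _) hz1.le (pow_ne_zero _ hp.ne_zero)
    linarith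
  obtain ⟨Z, -, hZ, hdiv⟩ :=
    Weier.exists_roots_division inv_prime_pos.le inv_prime_lt_one hlow hlead hsimple
  -- the rows span
  let rows : Set (Fin (n - h) → C) := (fun w => Row hh F P w) '' (Z : Set C)
  have hspan : Submodule.span C rows = ⊤ := by
    by_contra hne
    obtain ⟨f, hf0, hfker⟩ := Submodule.exists_le_ker_of_lt_top _ (lt_top_iff_ne_top.2 hne)
    set c : Fin (n - h) → C := fun i => f (Pi.single i 1) with hc
    have hfc : ∀ v, f v = ∑ i, v i * c i := fun v => by
      conv_lhs => rw [← Finset.univ_sum_single v]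
      rw [map_sum]
      refine Finset.sum_congr rfl fun i _ => ?_
      rw [show (Pi.single i (v i) : Fin (n - h) → C) = v i • Pi.single i 1 by
        rw [← Pi.single_smul, smul_eq_mul, mul_one], map_smul]
      rfl
    have : Nonempty (Fin (n - h)) := ⟨⟨0, by omega⟩⟩
    obtain ⟨m, -, hm⟩ := Finset.exists_max_image Finset.univ (fun i => ‖c i‖) Finset.univ_nonempty
    have hcm : c m ≠ 0 := fun h0 => hf0 (LinearMap.ext fun v => by
      rw [hfc, LinearMap.zero_apply]
      refine Finset.sum_eq_zero fun i _ => ?_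
      have := hm i (Finset.mem_univ i)
      rw [h0, norm_zero] at this
      rw [norm_le_zero_iff.1 this, mul_zero])
    set c' : Fin (n - h) → C := fun i => c i / c m with hc'
    have hc'1 : ∀ i, ‖c' i‖ ≤ 1 := fun i => by
      rw [hc', norm_div, div_le_one (norm_pos_iff.2 hcm)]; exact hm i (Finset.mem_univ i)
    obtain ⟨i0, hi0, hmin⟩ := Finset.exists_min_image (Finset.univ.filter fun i => ‖c' i‖ = 1) id
      ⟨m, Finset.mem_filter.2 ⟨Finset.mem_univ m, by rw [hc']; simp [hcm]⟩⟩
    simp only [Finset.mem_filter, Finset.mem_univ, true_and, id] at hi0 hmin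
    let D : PowerSeries (unitBall C) :=
      ∑ i, PowerSeries.C (⟨c' i, hc'1 i⟩ : unitBall C) * rser hh F P i
    have hDw : ∀ w ∈ Z, peval (unitBall C).subtype D w = 0 := fun w hw => by
      have hw1 := (hZ w hw).1
      have e : peval (unitBall C).subtype D w = ∑ i, c' i * Row hh F P w i := by
        rw [Eval.peval_eq_evalHom Weier.jA_le hw1]
        refine (map_sum (Eval.evalHom (unitBall C).subtype Weier.jA_le (fun _ : Unit => w)
          fun _ => hw1) _ _).trans (Finset.sum_congr rfl fun i _ => ?_)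
        rw [← Eval.peval_eq_evalHom Weier.jA_le hw1, Eval.peval_mul Weier.jA_le hw1]
        congr 1
        simpa using Eval.peval_C_mul_X_pow (j := (unitBall C).subtype) (y := w) 0
          (⟨c' i, hc'1 i⟩ : unitBall C)
      rw [e]
      have h0 : f (Row hh F P w) = 0 := LinearMap.mem_ker.1 (hfker (Submodule.subset_span
        ⟨w, Finset.mem_coe.2 hw, rfl⟩))
      rw [hfc] at h0
      calc ∑ i, c' i * Row hh F P w i = (∑ i, Row hh F P w i * c i) / c m := by
            rw [Finset.sum_div]; exact Finset.sum_congr rfl fun i _ => by rw [hc']; ring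
        _ = 0 := by rw [h0, zero_div]
    have hD1 := hdiv D hDw (p ^ i0.1) (Nat.pow_lt_pow_right hp.one_lt i0.2)
    obtain ⟨-, hvi⟩ := hA1' (h + i0.1) (by omega) (by have := i0.2; omega)
    have hres : ∀ i : Fin (n - h), i0 ≤ i →
        ‖Taylor.dval P.emb (red p n (cP F (p ^ h * p ^ i0.1))) (idx hh i) (coord P) -
          (if i = i0 then 1 else 0)‖ ≤ (p : ℝ)⁻¹ := by
      intro i hi
      have hco1 := (red_linear (by omega) (by have := i0.2; omega) hvi).2 (idx hh i) (by
        have : i0.1 ≤ i.1 := hi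
        simp only [idx]; omega)
      rw [map_sub, map_sub, sub_eq_zero] at hco1
      have e : P.emb (MvPowerSeries.coeff (Finsupp.single (idx hh i) 1)
          (red p n (cP F (p ^ h * p ^ i0.1)))) = if i = i0 then 1 else 0 := by
        rw [hQn, hco1,
          show vv p n (h + i0.1) = MvPowerSeries.X (idx hh i0) by
            rw [← vv_succ, idx]; congr 1; show h + i0.1 = h + i0.1 - 1 + 1; omega,
          red, MvPowerSeries.map_X, MvPowerSeries.coeff_X]
        by_cases he : i = i0
        · subst he; simp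
        · rw [if_neg he, if_neg (fun e' => he (idx_injective hh
            (Finsupp.single_left_injective one_ne_zero e'))), map_zero]
      rw [← e]
      exact Taylor.norm_dval_sub_le (norm_emb_le P.emb) _ _ inv_prime_pos.le inv_prime_lt_one
        (norm_coord_le P) (Taylor.summable_dval (norm_emb_le P.emb) _ _ (norm_coord_lt P))
    have hcoef : ((PowerSeries.coeff (p ^ i0.1) D : unitBall C) : C) = ∑ i, c' i *
        Taylor.dval P.emb (red p n (cP F (p ^ h * p ^ i0.1))) (idx hh i) (coord P) := by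
      rw [map_sum, AddSubmonoidClass.coe_finsetSum]
      refine Finset.sum_congr rfl fun i _ => ?_
      rw [PowerSeries.coeff_C_mul, rser, PowerSeries.coeff_mk]
      rfl
    rw [hcoef] at hD1
    set dv := fun i => Taylor.dval P.emb (red p n (cP F (p ^ h * p ^ i0.1))) (idx hh i) (coord P)
      with hdv
    have hdiff : ‖(∑ i, c' i * dv i) - c' i0‖ < 1 := by
      have : (∑ i, c' i * dv i) - c' i0 = ∑ i, c' i * (dv i - if i = i0 then 1 else 0) := by
        simp [mul_sub, Finset.sum_sub_distrib]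
      rw [this]
      have hlt : ∀ i, ‖c' i * (dv i - if i = i0 then 1 else 0)‖ < 1 := fun i => by
        rw [norm_mul]
        rcases lt_or_ge i i0 with hi | hi
        · have hne : ‖c' i‖ ≠ 1 := fun h1 => absurd (hmin i h1) (not_le.2 hi)
          have hd1 : ‖dv i - (if i = i0 then 1 else 0)‖ ≤ 1 := by
            rw [if_neg hi.ne, sub_zero]
            exact Taylor.norm_dval_le (norm_emb_le P.emb) _ _ fun l => (norm_coord_lt P l).le
          exact lt_of_le_of_lt (mul_le_of_le_one_right (norm_nonneg _) hd1)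
            (lt_of_le_of_ne (hc'1 i) hne)
        · exact lt_of_le_of_lt (mul_le_of_le_one_left (norm_nonneg _) (hc'1 i))
            (lt_of_le_of_lt (hres i hi) inv_prime_lt_one)
      obtain ⟨i, -, hi⟩ := Finset.exists_max_image Finset.univ
        (fun i => ‖c' i * (dv i - if i = i0 then 1 else 0)‖) Finset.univ_nonempty
      exact lt_of_le_of_lt (IsUltrametricDist.norm_sum_le_of_forall_le_of_nonneg (norm_nonneg _)
        fun l hl => hi l hl) (hlt i)
    have : ‖c' i0‖ < 1 := by
      rw [show c' i0 = (∑ i, c' i * dv i) + -((∑ i, c' i * dv i) - c' i0) by ring]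
      exact lt_of_le_of_lt (IsUltrametricDist.norm_add_le_max _ _)
        (max_lt hD1 (by rwa [norm_neg]))
    exact this.ne hi0
  -- choose a basis among the rows
  obtain ⟨b, hbsub, hbspan, hbli⟩ := exists_linearIndependent C rows
  have hbfin : b.Finite := ((Z.finite_toSet).image _).subset hbsub
  have : Fintype b := hbfin.fintype
  let B := Module.Basis.mk hbli (by rw [Subtype.range_coe]; rw [hbspan, hspan])
  have hcard : Fintype.card b = n - h := by
    rw [← Module.finrank_eq_card_basis B, Module.finrank_fin_fun]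
  let e : Fin (n - h) ≃ b := (Fintype.equivFinOfCardEq hcard).symm
  have hw : ∀ j, ∃ w ∈ Z, Row hh F P w = (e j).1 := fun j => hbsub (e j).2
  choose w hwZ hwrow using hw
  choose z hz hzw using fun j => hpre (w j) (hZ _ (hwZ j)).1
  have hroot : ∀ j, pMul F P (piMap F P (z j)) = 0 := fun j => by
    rw [pMul_eq hn1 hh F P hco, hzw]; exact (hZ _ (hwZ j)).2
  set ξ : Fin (n - h) → C := fun j => z j ^ p ^ n with hξdef
  have hξ1 : ∀ j, ‖ξ j‖ < 1 := fun j => norm_pow_lt (p := p) (h := n) (hz j)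
  have hξ0 : ∀ j, piMap F P (ξ j) = 0 := fun j => by
    rw [hξdef, (hcov P).pi_pow _ (hz j), hroot j]
  set L : Matrix (Fin (n - h)) (Fin (n - h)) C := Matrix.of fun j i => Row hh F P (w j) i
  have hlin : ∀ j, IsLin F P (ξ j) (L j) := fun j => by
    have := isLin_root hcov hco P hn1 hh hn (hz j) (hroot j)
    rw [hzw] at this
    exact this
  have hLI : LinearIndependent C L.row := by
    have : L.row = (fun v : b => (v : Fin (n - h) → C)) ∘ e := funext fun j => hwrow j
    rw [this]
    exact hbli.comp _ e.injective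
  have hdet : IsUnit L.det :=
    (Matrix.isUnit_iff_isUnit_det L).1 (Matrix.linearIndependent_rows_iff_isUnit.1 hLI)
  refine ⟨ξ, L, hξ1, hξ0, hdet, ?_, ?_⟩
  · choose K δ hδ hK using hlin
    have : Nonempty (Fin (n - h)) := ⟨⟨0, by omega⟩⟩
    obtain ⟨j1, -, hj1⟩ := Finset.exists_min_image Finset.univ δ Finset.univ_nonempty
    obtain ⟨j2, -, hj2⟩ := Finset.exists_max_image Finset.univ K Finset.univ_nonempty
    refine ⟨K j2, δ j1, hδ j1, fun η P' hs hη j => ?_⟩
    refine le_trans (le_of_eq ?_) ((hK j η P' hs (hη.trans (hj1 j (Finset.mem_univ j)))).trans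
      (mul_le_mul_of_nonneg_right (hj2 j (Finset.mem_univ j)) (sq_nonneg _)))
    congr 2
    simp only [Matrix.mulVec, dotProduct]
    exact Finset.sum_congr rfl fun i _ => mul_comm _ _
  -- independence
  intro a ha
  obtain ⟨k0, hk0⟩ := exists_pow_lt_of_lt_one (norm_pos_iff.2 P.chi_h)
    (inv_prime_lt_one (p := p))
  have hpi_small : ∀ k : ℕ, ∀ y : C, ‖y‖ ≤ ((p : ℝ)⁻¹) ^ p ^ (n * k) →
      ‖piMap F P y‖ ≤ ((p : ℝ)⁻¹) ^ p ^ (h * k) := by
    intro k
    induction k with
    | zero =>
      intro y hy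
      simp only [Nat.mul_zero, pow_zero, pow_one] at hy ⊢
      exact ((hcov P).pi_bound y (hy.trans_lt inv_prime_lt_one)).trans (max_le hy le_rfl)
    | succ k ih =>
      intro y hy
      set y0 := root p n 1 y
      have hy0 : y0 ^ p ^ n = y := by have := root_pow (p := p) (n := n) 1 y; rwa [mul_one] at this
      have hy0' : ‖y0‖ ≤ ((p : ℝ)⁻¹) ^ p ^ (n * k) := by
        rw [← pow_le_pow_iff_left₀ (norm_nonneg _) (pow_nonneg inv_prime_pos.le _)
          (pow_ne_zero n hp.ne_zero), ← norm_pow, hy0, ← pow_mul, ← pow_add]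
        rwa [← Nat.mul_succ]
      have hy01 : ‖y0‖ < 1 := hy0'.trans_lt
        (pow_lt_one₀ inv_prime_pos.le inv_prime_lt_one (pow_ne_zero _ hp.ne_zero))
      rw [← hy0, (hcov P).pi_pow y0 hy01]
      refine (norm_pMul_le_jac hh F P hco hn1 ((hcov P).pi_small y0 hy01)).trans ?_
      rw [Nat.mul_succ, pow_add p, pow_mul]
      exact pow_le_pow_left₀ (norm_nonneg _) (ih y0 hy0') _
  have hsmallker : ∀ T : C, ‖T‖ ≤ (((p : ℝ)⁻¹) ^ p ^ (n * k0)) ^ p ^ n → piMap F P T = 0 →
      IsLin F P T 0 := by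
    intro T hT hT0
    set y := root p n 1 T
    have hy : y ^ p ^ n = T := by have := root_pow (p := p) (n := n) 1 T; rwa [mul_one] at this
    have hy' : ‖y‖ ≤ ((p : ℝ)⁻¹) ^ p ^ (n * k0) := by
      rw [← pow_le_pow_iff_left₀ (norm_nonneg _) (pow_nonneg inv_prime_pos.le _)
        (pow_ne_zero n hp.ne_zero), ← norm_pow, hy]
      exact hT
    have hy1 : ‖y‖ < 1 := hy'.trans_lt
      (pow_lt_one₀ inv_prime_pos.le inv_prime_lt_one (pow_ne_zero _ hp.ne_zero))
    rw [← hy, (hcov P).pi_pow y hy1] at hT0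
    have hw0 : piMap F P y ^ p ^ h = 0 := by
      refine eq_zero_of_root hh F P hn1 hv ?_ (by rw [← pMul_eq hn1 hh F P hco]; exact hT0)
      rw [norm_pow]
      refine lt_of_le_of_lt ((pow_le_pow_left₀ (norm_nonneg _) (hpi_small k0 y hy') _).trans
        ?_) hk0
      rw [← pow_mul]
      refine pow_le_pow_of_le_one inv_prime_pos.le inv_prime_lt_one.le ?_
      calc k0 ≤ h * k0 := Nat.le_mul_of_pos_left _ hh
        _ ≤ p ^ (h * k0) := (Nat.lt_pow_self hp.one_lt).le
        _ ≤ p ^ (h * k0) * p ^ h := Nat.le_mul_of_pos_right _ (pow_pos hp.pos _)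
    have := isLin_root hcov hco P hn1 hh hn hy1 hT0
    rw [hy, hw0, show Row hh F P (0 : C) = 0 from funext fun i => Row_zero hh F P i] at this
    exact this
  suffices hall : ∀ k : ℕ, ∀ j, a j ∈ (Ideal.span {(p : ℤ_[p]) ^ k} : Ideal ℤ_[p]) by
    funext j
    have hb : ∀ k : ℕ, ‖a j‖ ≤ (p : ℝ) ^ (-(k : ℤ)) := fun k =>
      (PadicInt.norm_le_pow_iff_mem_span_pow (a j) k).2 (hall k j)
    refine norm_le_zero_iff.1 (le_of_tendsto_of_tendsto' (b := Filter.atTop) tendsto_const_nhds
      ?_ hb)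
    simpa [zpow_neg, ← inv_pow] using
      tendsto_pow_atTop_nhds_zero_of_lt_one inv_prime_pos.le (inv_prime_lt_one (p := p))
  intro k
  induction k with
  | zero => intro j; simp
  | succ k ih =>
    set δT := (((p : ℝ)⁻¹) ^ p ^ (n * k0)) ^ p ^ n with hδT
    have hδ0 : 0 < δT := pow_pos (pow_pos inv_prime_pos _) _
    obtain ⟨N, hN⟩ := ha (δT ^ p ^ (n * k)) (pow_pos hδ0 _)
    set M := max N (k + 1)
    have hdvd : ∀ j, p ^ k ∣ (a j).appr M := by
      intro j
      have h1 : ((a j).appr M : ℤ_[p]) ∈ (Ideal.span {(p : ℤ_[p]) ^ k} : Ideal ℤ_[p]) := by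
        rw [show ((a j).appr M : ℤ_[p]) = a j - (a j - (a j).appr M) by ring]
        refine Ideal.sub_mem _ (ih j) (Ideal.span_singleton_le_span_singleton.2
          (pow_dvd_pow _ (by omega : k ≤ M)) (PadicInt.appr_spec M (a j)))
      rw [← PadicInt.norm_le_pow_iff_mem_span_pow,
        show (((a j).appr M : ℕ) : ℤ_[p]) = (((a j).appr M : ℤ) : ℤ_[p]) by push_cast; rfl,
        PadicInt.norm_int_le_pow_iff_dvd] at h1
      exact_mod_cast h1
    choose bq hbq using hdvd
    set T := pointSum (hondaIn Gn C) (List.ofFn fun j => nPoint (hondaIn Gn C) (bq j) (ξ j))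
    have hn_lt : ∀ j, ‖nPoint (hondaIn Gn C) (bq j) (ξ j)‖ < 1 :=
      fun j => norm_nPoint_honda Gn _ (hξ1 j)
    have hST : pointSum (hondaIn Gn C)
        (List.ofFn fun j => nPoint (hondaIn Gn C) ((a j).appr M) (ξ j)) = T ^ p ^ (n * k) := by
      rw [pointSum_pow Gn (n * k) (by
        intro x hx; obtain ⟨j, rfl⟩ := List.mem_ofFn.1 hx; exact hn_lt j), List.map_ofFn]
      congr 2
      funext j
      rw [Function.comp_apply, ← nPoint_mul_pow hpz (hξ1 j), hbq j, mul_comm]
    have hTle : ‖T‖ ≤ δT := by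
      rw [← pow_le_pow_iff_left₀ (norm_nonneg _) hδ0.le (pow_ne_zero (n * k) hp.ne_zero),
        ← norm_pow, ← hST]
      exact (hN M (le_max_left _ _)).le
    have hnLin : ∀ j (m : ℕ), piMap F P (nPoint (hondaIn Gn C) m (ξ j)) = 0 ∧
        IsLin F P (nPoint (hondaIn Gn C) m (ξ j)) ((m : C) • L j) := fun j m => by
      have := lin_pointSum hcov hco P hn1 hh (l := List.replicate m (ξ j, L j))
        (fun a ha => by rw [List.eq_of_mem_replicate ha]; exact ⟨hξ1 j, hξ0 j, hlin j⟩)
      rw [List.map_replicate, List.map_replicate, List.sum_replicate] at this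
      rw [Nat.cast_smul_eq_nsmul]
      exact this
    have hTlin := lin_pointSum hcov hco P hn1 hh
      (l := List.ofFn fun j => (nPoint (hondaIn Gn C) (bq j) (ξ j), (bq j : C) • L j))
      (fun x hx => by
        obtain ⟨j, rfl⟩ := List.mem_ofFn.1 hx
        exact ⟨hn_lt j, hnLin j (bq j)⟩)
    rw [List.map_ofFn, List.map_ofFn, List.sum_ofFn] at hTlin
    have h0 := isLin_unique P hh hn hTlin.2 (hsmallker T hTle hTlin.1)
    have hzero := Fintype.linearIndependent_iff.1 hLI (fun j => (bq j : C)) h0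
    intro j
    have hp_dvd : p ∣ bq j := (CharP.cast_eq_zero_iff C p _).1 (hzero j)
    obtain ⟨b', hb'⟩ := hp_dvd
    rw [show a j = (a j - (a j).appr M) + ((a j).appr M : ℤ_[p]) by ring]
    refine Ideal.add_mem _ (Ideal.span_singleton_le_span_singleton.2
      (pow_dvd_pow _ (le_max_right _ _)) (PadicInt.appr_spec M (a j))) ?_
    rw [hbq j, hb', Ideal.mem_span_singleton]
    exact ⟨(b' : ℤ_[p]), by push_cast; ring⟩

end Vale.Agent.P217.EF
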