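import Vale.Agent.P217.Jac.Taylor
import Vale.Agent.P217.EF.Basic

/-!
# P217, block EF, Jacobian part: roots in the disc of a series with Weierstrass degree N
-/

noncomputable section

namespace Vale.Agent.P217.Weier

open Filter Topology Polynomial

variable {C : Type} [NontriviallyNormedField C] [IsUltrametricDist C]

theorem jA_le (r : (unitBall C)) : ‖(Subring.subtype (unitBall C)) r‖ ≤ 1 := r.2

theorem isUnit_of_norm_eq_one {x : (unitBall C)} (hx : ‖(x : C)‖ = 1) : IsUnit x := by
  have h0 : (x : C) ≠ 0 := fun h => by simp [h] at hx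
  refine ⟨⟨x, ⟨(x : C)⁻¹, by show ‖(x : C)⁻¹‖ ≤ 1; rw [norm_inv, hx, inv_one]⟩,
    Subtype.ext (mul_inv_cancel₀ h0), Subtype.ext (inv_mul_cancel₀ h0)⟩, rfl⟩

theorem dvd_iff {t x : (unitBall C)} (ht : (t : C) ≠ 0) : t ∣ x ↔ ‖(x : C)‖ ≤ ‖(t : C)‖ := by
  constructor
  · rintro ⟨y, rfl⟩
    rw [Subring.coe_mul, norm_mul]
    exact mul_le_of_le_one_right (norm_nonneg _) y.2
  · intro h
    refine ⟨⟨(x : C) / t, ?_⟩, Subtype.ext (mul_div_cancel₀ _ ht).symm⟩
    show ‖(x : C) / t‖ ≤ 1
    rw [norm_div, div_le_one (norm_pos_iff.2 ht)]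
    exact h

theorem smodEq_iff {t : (unitBall C)} (ht : (t : C) ≠ 0) (m : ℕ) (x y : (unitBall C)) :
    x ≡ y [SMOD (Ideal.span {t} ^ m • ⊤ : Submodule (unitBall C) (unitBall C))] ↔
      ‖(x : C) - y‖ ≤ ‖(t : C)‖ ^ m := by
  rw [SModEq.sub_mem, smul_eq_mul, Ideal.mul_top, Ideal.span_singleton_pow,
    Ideal.mem_span_singleton, dvd_iff (by simpa using pow_ne_zero m ht)]
  simp

variable [CompleteSpace C]

theorem isAdicComplete_span {t : (unitBall C)} (ht : (t : C) ≠ 0) (ht1 : ‖(t : C)‖ < 1) :
    IsAdicComplete (Ideal.span {t}) (unitBall C) := by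
  have hlim : Tendsto (fun m : ℕ => ‖(t : C)‖ ^ m) atTop (𝓝 0) :=
    tendsto_pow_atTop_nhds_zero_of_lt_one (norm_nonneg _) ht1
  have hH : IsHausdorff (Ideal.span {t}) (unitBall C) := ⟨fun x hx => by
    have h0 : ‖(x : C)‖ ≤ 0 := le_of_tendsto_of_tendsto' tendsto_const_nhds hlim fun m => by
      simpa using (smodEq_iff ht m x 0).1 (hx m)
    exact Subtype.ext (norm_le_zero_iff.1 h0)⟩
  have hP : IsPrecomplete (Ideal.span {t}) (unitBall C) := ⟨fun f hf => by
    have hb : ∀ m k, m ≤ k → ‖(f m : C) - f k‖ ≤ ‖(t : C)‖ ^ m :=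
      fun m k h => (smodEq_iff ht m _ _).1 (hf h)
    have hc : CauchySeq fun m => (f m : C) :=
      cauchySeq_of_le_tendsto_0' (fun m => ‖(t : C)‖ ^ m)
        (fun m k h => by rw [dist_eq_norm]; exact hb m k h) hlim
    obtain ⟨L, hL⟩ := cauchySeq_tendsto_of_complete hc
    refine ⟨⟨L, le_of_tendsto' hL.norm fun m => (f m).2⟩, fun m => (smodEq_iff ht m _ _).2 ?_⟩
    exact le_of_tendsto ((tendsto_const_nhds.sub hL).norm)
      (eventually_atTop.2 ⟨m, fun k hk => hb m k hk⟩)⟩
  exact { toIsHausdorff := hH, toIsPrecomplete := hP }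

omit [CompleteSpace C] in
theorem exists_near_one [IsAlgClosed C] {ρ : ℝ} (hρ : 0 ≤ ρ) (hρ1 : ρ < 1) :
    ∃ t : (unitBall C), (t : C) ≠ 0 ∧ ρ ≤ ‖(t : C)‖ ∧ ‖(t : C)‖ < 1 := by
  obtain ⟨s, hs0, hs1⟩ := NormedField.exists_norm_lt C one_pos
  obtain ⟨m, hm⟩ := exists_pow_lt_of_lt_one hs0 hρ1
  obtain ⟨r, hr⟩ := IsAlgClosed.exists_pow_nat_eq s (Nat.succ_pos m)
  have hrn : ‖r‖ ^ (m + 1) = ‖s‖ := by rw [← norm_pow, hr]
  have h1 : ‖r‖ < 1 := by
    rw [← pow_lt_one_iff_of_nonneg (norm_nonneg r) (Nat.succ_ne_zero m), hrn]; exact hs1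
  refine ⟨⟨r, h1.le⟩, fun h => ?_, ?_, h1⟩
  · simp only at h
    rw [h, norm_zero, zero_pow (Nat.succ_ne_zero m)] at hrn
    exact hs0.ne' (by simpa using hrn.symm)
  · by_contra hlt
    push Not at hlt
    have := pow_lt_pow_left₀ (show ‖r‖ < ρ from hlt) (norm_nonneg _) (Nat.succ_ne_zero m)
    rw [hrn, pow_succ] at this
    nlinarith [mul_le_of_le_one_right (pow_nonneg hρ m) hρ1.le]

omit [CompleteSpace C] in
theorem peval_coe (r : (unitBall C)[X]) (w : C) :
    peval (Subring.subtype (unitBall C)) (r : PowerSeries (unitBall C)) w = (r.map (Subring.subtype (unitBall C))).eval w := by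
  rw [peval, tsum_eq_sum (s := Finset.range (r.natDegree + 1)) (fun k hk => ?_),
    Polynomial.eval_map, Polynomial.eval₂_eq_sum_range]
  · exact Finset.sum_congr rfl fun k _ => by rw [Polynomial.coeff_coe]
  · rw [Finset.mem_range, not_lt] at hk
    rw [Polynomial.coeff_coe, Polynomial.coeff_eq_zero_of_natDegree_lt (by omega), map_zero,
      zero_mul]

theorem norm_taylor_one {R : Type} [CommRing R] {j : R →+* C} (hj : ∀ a, ‖j a‖ ≤ 1)
    (f : PowerSeries R) {w s : C} (hw : ‖w‖ < 1) (hs : ‖s‖ < 1) :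
    ‖peval j f (w + s) - peval j f w - peval j (PowerSeries.derivative R f) w * s‖ ≤
      ‖s‖ ^ 2 := by
  have hws : ‖w + s‖ < 1 :=
    lt_of_le_of_lt (IsUltrametricDist.norm_add_le_max _ _) (max_lt hw hs)
  have hd : HasSum (fun k => j (PowerSeries.coeff k f) * ((k : C) * w ^ (k - 1)))
      (peval j (PowerSeries.derivative R f) w) := by
    have h := EF.hasSum_peval hj (PowerSeries.derivative R f) hw
    rw [← hasSum_nat_add_iff' 1]
    refine HasSum.congr_fun ?_ (fun k => (?_ : _ = j (PowerSeries.coeff k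
      (PowerSeries.derivative R f)) * w ^ k))
    · simpa using h
    · rw [PowerSeries.coeff_derivative, map_mul, map_add, map_natCast, map_one,
        Nat.add_sub_cancel]
      push_cast
      ring
  have h := ((EF.hasSum_peval hj f hws).sub (EF.hasSum_peval hj f hw)).sub (hd.mul_right s)
  rw [← h.tsum_eq]
  refine IsUltrametricDist.norm_tsum_le_of_forall_le_of_nonneg (sq_nonneg _) fun k => ?_
  rw [show j (PowerSeries.coeff k f) * (w + s) ^ k - j (PowerSeries.coeff k f) * w ^ k -
      j (PowerSeries.coeff k f) * ((k : C) * w ^ (k - 1)) * s =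
      j (PowerSeries.coeff k f) * ((w + s) ^ k - w ^ k - (k : C) * w ^ (k - 1) * s) by ring,
    norm_mul]
  exact le_trans (mul_le_of_le_one_left (norm_nonneg _) (hj _))
    (Taylor.norm_pow_expand hw.le hs.le k)

variable {g : PowerSeries (unitBall C)} {N : ℕ}

/-- The roots in the disc of a series whose derivative does not vanish there, and division. -/
theorem exists_roots_division [IsAlgClosed C] {ρ : ℝ} (hρ : 0 ≤ ρ) (hρ1 : ρ < 1)
    (hlow : ∀ k < N, ‖((PowerSeries.coeff k g : unitBall C) : C)‖ ≤ ρ)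
    (hN : ‖((PowerSeries.coeff N g : unitBall C) : C)‖ = 1)
    (hsimple : ∀ w, ‖w‖ < 1 → peval (Subring.subtype (unitBall C)) g w = 0 →
      peval (Subring.subtype (unitBall C)) (PowerSeries.derivative _ g) w ≠ 0) :
    ∃ Z : Finset C, Z.card = N ∧ (∀ w ∈ Z, ‖w‖ < 1 ∧ peval (Subring.subtype (unitBall C)) g w = 0) ∧
      ∀ D : PowerSeries (unitBall C), (∀ w ∈ Z, peval (Subring.subtype (unitBall C)) D w = 0) →
        ∀ k < N, ‖((PowerSeries.coeff k D : unitBall C) : C)‖ < 1 := by
  classical
  obtain ⟨t, ht0, htρ, ht1⟩ := exists_near_one (C := C) hρ hρ1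
  set I := Ideal.span {t}
  have := isAdicComplete_span ht0 ht1
  have hI : ∀ x : (unitBall C), x ∈ I ↔ ‖(x : C)‖ ≤ ‖(t : C)‖ := fun x => by
    rw [Ideal.mem_span_singleton]; exact dvd_iff ht0
  have hord : (g.map (Ideal.Quotient.mk I)).order = (N : ℕ∞) := by
    rw [PowerSeries.order_eq_nat]
    refine ⟨?_, fun i hi => ?_⟩
    · rw [PowerSeries.coeff_map, Ne, Ideal.Quotient.eq_zero_iff_mem, hI, hN, not_le]
      exact ht1
    · rw [PowerSeries.coeff_map, Ideal.Quotient.eq_zero_iff_mem, hI]
      exact (hlow i hi).trans htρ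
  have H : g.IsWeierstrassDivisorAt I := by
    rw [PowerSeries.IsWeierstrassDivisorAt, hord, ENat.toNat_natCast]
    exact isUnit_of_norm_eq_one hN
  have hdiv := fun f : PowerSeries (unitBall C) => H.isWeierstrassDivisionAt_div_mod f
  set q := H.div (PowerSeries.X ^ N)
  set r := H.mod (PowerSeries.X ^ N)
  have hdeg : r.degree < N := by simpa [hord] using (hdiv (PowerSeries.X ^ N)).degree_lt
  have heq : (PowerSeries.X ^ N : PowerSeries (unitBall C)) = g * q + r :=
    (hdiv (PowerSeries.X ^ N)).eq_mul_add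
  have hrI : ∀ k, r.coeff k ∈ I := fun k => by
    by_cases hk : k < N
    · have := (hdiv (PowerSeries.X ^ N)).coeff_f_sub_r_mem (i := k) (by simpa [hord] using hk)
      simpa [PowerSeries.coeff_X_pow, hk.ne] using this
    · rw [Polynomial.coeff_eq_zero_of_degree_lt (lt_of_lt_of_le hdeg (by exact_mod_cast not_lt.1 hk))]
      exact I.zero_mem
  have hq0 : ‖((PowerSeries.constantCoeff q : unitBall C) : C)‖ = 1 := by
    have hmem : (1 : (unitBall C)) - PowerSeries.coeff N g * PowerSeries.constantCoeff q ∈ I := by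
      have h := congrArg (PowerSeries.coeff N) heq
      rw [PowerSeries.coeff_X_pow, if_pos rfl, map_add, Polynomial.coeff_coe,
        Polynomial.coeff_eq_zero_of_degree_lt hdeg, add_zero, PowerSeries.coeff_mul] at h
      have hm : (N, 0) ∈ Finset.HasAntidiagonal.antidiagonal N := by simp
      rw [← Finset.add_sum_erase _ _ hm, PowerSeries.coeff_zero_eq_constantCoeff_apply] at h
      rw [h, add_sub_cancel_left]
      refine I.sum_mem fun ab hab => I.mul_mem_right _ ((hI _).2 ((hlow _ ?_).trans htρ))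
      obtain ⟨hne, hmem⟩ := Finset.mem_erase.1 hab
      rw [Finset.HasAntidiagonal.mem_antidiagonal] at hmem
      rcases lt_or_ge ab.1 N with h' | h'
      · exact h'
      · exact absurd (Prod.ext (by omega) (by omega)) hne
    have hlt : ‖(1 : C) - ((PowerSeries.coeff N g : unitBall C) : C) * ((PowerSeries.constantCoeff q : unitBall C) : C)‖ < 1 := by
      refine lt_of_le_of_lt ?_ ht1
      simpa using (hI _).1 hmem
    have hpr : ‖((PowerSeries.coeff N g : unitBall C) : C) * ((PowerSeries.constantCoeff q : unitBall C) : C)‖ = 1 := by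
      have e := IsUltrametricDist.norm_add_eq_max_of_norm_ne_norm (x := (1 : C))
        (y := -((1 : C) - ((PowerSeries.coeff N g : unitBall C) : C) * ((PowerSeries.constantCoeff q : unitBall C) : C)))
        (by rw [norm_one, norm_neg]; exact hlt.ne')
      rw [norm_one, norm_neg, max_eq_left hlt.le] at e
      simpa using e
    rwa [norm_mul, hN, one_mul] at hpr
  have hqw : ∀ w : C, ‖w‖ < 1 → peval (Subring.subtype (unitBall C)) q w ≠ 0 := by
    intro w hw hz
    have e : q = PowerSeries.C (PowerSeries.constantCoeff q) +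
        (q - PowerSeries.C (PowerSeries.constantCoeff q)) := (add_sub_cancel _ _).symm
    have h1 : peval (Subring.subtype (unitBall C)) q w = ((PowerSeries.constantCoeff q : unitBall C) : C) +
        peval (Subring.subtype (unitBall C)) (q - PowerSeries.C (PowerSeries.constantCoeff q)) w := by
      conv_lhs => rw [e]
      rw [Eval.peval_add jA_le hw]
      congr 1
      simpa using Eval.peval_C_mul_X_pow (j := (Subring.subtype (unitBall C))) (y := w) 0 (PowerSeries.constantCoeff q)
    have h2 : ‖peval (Subring.subtype (unitBall C)) (q - PowerSeries.C (PowerSeries.constantCoeff q)) w‖ < 1 :=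
      lt_of_le_of_lt (Eval.norm_peval_le jA_le hw.le _ (by simp)) hw
    rw [h1] at hz
    rw [← neg_eq_iff_add_eq_zero.2 hz, ← norm_neg, neg_neg] at h2
    exact absurd hq0 h2.ne
  set G : (unitBall C)[X] := Polynomial.X ^ N - r
  have hGm : G.Monic := Polynomial.monic_X_pow_sub (by exact_mod_cast hdeg)
  have hGeq : (G : PowerSeries (unitBall C)) = g * q := by
    rw [Polynomial.coe_sub, Polynomial.coe_pow, Polynomial.coe_X, heq, add_sub_cancel_right]
  have hGd : G.natDegree = N := Polynomial.natDegree_eq_of_degree_eq_some (by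
    rw [Polynomial.degree_sub_eq_left_of_degree_lt (by rwa [Polynomial.degree_X_pow]),
      Polynomial.degree_X_pow])
  set GC := G.map (Subring.subtype (unitBall C)) with hGC
  have hGCm : GC.Monic := hGm.map _
  have hGCd : GC.natDegree = N := by rw [hGC, hGm.natDegree_map, hGd]
  have hroot_small : ∀ w ∈ GC.roots, ‖w‖ < 1 := by
    intro w hw
    have hz := (Polynomial.mem_roots hGCm.ne_zero).1 hw
    rw [Polynomial.IsRoot, hGC, Polynomial.map_sub, Polynomial.map_pow, Polynomial.map_X,
      Polynomial.eval_sub, Polynomial.eval_pow, Polynomial.eval_X, sub_eq_zero] at hz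
    by_contra hge
    push Not at hge
    have hle : ‖(r.map (Subring.subtype (unitBall C))).eval w‖ ≤ ‖(t : C)‖ * ‖w‖ ^ N := by
      rw [Polynomial.eval_eq_sum_range' (n := N + 1) (by
        have := Polynomial.natDegree_map_le (f := (Subring.subtype (unitBall C))) (p := r)
        have : r.natDegree ≤ N := Polynomial.natDegree_le_of_degree_le hdeg.le
        omega)]
      refine IsUltrametricDist.norm_sum_le_of_forall_le_of_nonneg (by positivity) fun k hk => ?_
      rw [norm_mul, norm_pow, Polynomial.coeff_map]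
      exact mul_le_mul ((hI _).1 (hrI k))
        (pow_le_pow_right₀ hge (Nat.lt_succ_iff.1 (Finset.mem_range.1 hk))) (by positivity)
        (norm_nonneg _)
    rw [← hz, norm_pow] at hle
    nlinarith [one_le_pow₀ (n := N) hge]
  have hzero : ∀ w, ‖w‖ < 1 → GC.eval w = peval (Subring.subtype (unitBall C)) g w * peval (Subring.subtype (unitBall C)) q w := fun w hw => by
    rw [← Eval.peval_mul jA_le hw, ← hGeq, peval_coe]
  have hgroot : ∀ w ∈ GC.roots, peval (Subring.subtype (unitBall C)) g w = 0 := fun w hw => by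
    have hz := (Polynomial.mem_roots hGCm.ne_zero).1 hw
    rw [Polynomial.IsRoot, hzero w (hroot_small w hw)] at hz
    exact (mul_eq_zero.1 hz).resolve_right (hqw w (hroot_small w hw))
  have hnodup : GC.roots.Nodup := by
    rw [Multiset.nodup_iff_count_le_one]
    intro w
    by_contra hc
    push Not at hc
    rw [Polynomial.count_roots] at hc
    obtain ⟨hr0, hd0⟩ := (Polynomial.one_lt_rootMultiplicity_iff_isRoot hGCm.ne_zero).1 hc
    have hw := hroot_small w ((Polynomial.mem_roots hGCm.ne_zero).2 hr0)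
    have hgw := hgroot w ((Polynomial.mem_roots hGCm.ne_zero).2 hr0)
    apply hsimple w hw hgw
    have e : PowerSeries.derivative _ (G : PowerSeries (unitBall C)) =
        ((Polynomial.derivative G : (unitBall C)[X]) : PowerSeries (unitBall C)) := PowerSeries.derivative_coe G
    have h := congrArg (fun s => peval (Subring.subtype (unitBall C)) s w) e
    rw [hGeq, Derivation.leibniz, Eval.peval_add jA_le hw, smul_eq_mul, smul_eq_mul,
      Eval.peval_mul jA_le hw, Eval.peval_mul jA_le hw, hgw, zero_mul, zero_add, peval_coe,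
      ← Polynomial.derivative_map] at h
    rw [Polynomial.IsRoot, ← h] at hd0
    exact (mul_eq_zero.1 hd0).resolve_left (hqw w hw)
  refine ⟨GC.roots.toFinset, ?_, fun w hw => ?_, fun D hD k hk => ?_⟩
  · rw [Multiset.toFinset_card_of_nodup hnodup, IsAlgClosed.card_roots_eq_natDegree, hGCd]
  · rw [Multiset.mem_toFinset] at hw
    exact ⟨hroot_small w hw, hgroot w hw⟩
  set qD := H.div D
  set rD := H.mod D
  have hdD : rD.degree < N := by simpa [hord] using (hdiv D).degree_lt
  have hDeq : D = g * qD + rD := (hdiv D).eq_mul_add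
  have hr0 : rD = 0 := by
    have hinj : Function.Injective (Subring.subtype (unitBall C)) := Subtype.val_injective
    rw [← Polynomial.map_eq_zero_iff hinj]
    refine Polynomial.eq_zero_of_degree_lt_of_eval_finset_eq_zero GC.roots.toFinset ?_ fun w hw => ?_
    · rw [Multiset.toFinset_card_of_nodup hnodup, IsAlgClosed.card_roots_eq_natDegree, hGCd]
      exact lt_of_le_of_lt Polynomial.degree_map_le hdD
    · have hw' := Multiset.mem_toFinset.1 hw
      have h := hD w hw
      rw [hDeq, Eval.peval_add jA_le (hroot_small w hw'),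
        Eval.peval_mul jA_le (hroot_small w hw'), hgroot w hw', zero_mul, zero_add, peval_coe] at h
      exact h
  refine lt_of_le_of_lt ?_ ht1
  have := (hdiv D).coeff_f_sub_r_mem (i := k) (by simpa [hord] using hk)
  rw [show H.mod D = rD from rfl, hr0, Polynomial.coe_zero, sub_zero] at this
  exact (hI _).1 this

end Vale.Agent.P217.Weier
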