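import Vale.Agent.P217.Jac.Pins
import Vale.Agent.P217.Jac.Point
import Vale.Agent.P217.Jac.Weier

/-!
# P217, block EF, Jacobian part: multiplication by p near a point and its linear parts
-/

noncomputable section

namespace Vale.Agent.P217.EF

open Filter Topology

variable {p : ℕ} [Fact p.Prime] {n h : ℕ}

theorem chi_eq_zero_of_mem {C : Type} [NormedField C] [CharP C p] (hh : 1 ≤ h)
    (P : GoodPoint p n h C) {a : E0 p n} (ha : a ∈ heightIdeal p n h) : P.chi a = 0 := by
  rw [heightIdeal, if_neg (by omega)] at ha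
  have : Ideal.span (insert (p : E0 p n) {x | ∃ i, 1 ≤ i ∧ i < h ∧ x = vv p n i}) ≤
      RingHom.ker P.chi := by
    rw [Ideal.span_le]
    rintro x (rfl | ⟨i, -, hi, rfl⟩)
    · simp [RingHom.mem_ker, CharP.cast_eq_zero]
    · exact P.chi_zero i hi
  exact this ha

variable {C : Type} [NontriviallyNormedField C] [IsUltrametricDist C]

/-- The index of the i-th moving coordinate. -/
def idx (hh : 1 ≤ h) (i : Fin (n - h)) : Fin (n - 1) := ⟨h + i - 1, by have := i.2; omega⟩

theorem idx_injective (hh : 1 ≤ h) : Function.Injective (idx (n := n) hh) := fun a b hab => by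
  have := congrArg Fin.val hab
  simp only [idx] at this
  exact Fin.ext (by omega)

omit [IsUltrametricDist C] in
theorem sum_shiftVec (hh : 1 ≤ h) (η : Fin (n - h) → C) (f : Fin (n - 1) → C) :
    ∑ l, shiftVec n h η l * f l = ∑ i, η i * f (idx hh i) := by
  refine (Fintype.sum_of_injective (idx hh) (idx_injective hh) _ _ (fun l hl => ?_) fun i => ?_).symm
  · rw [shiftVec]
    split_ifs with hle
    · exact absurd ⟨⟨l.1 + 1 - h, by have := l.2; omega⟩, Fin.ext (by simp [idx]; omega)⟩ hl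
    · rw [zero_mul]
  · rw [shiftVec, dif_pos (show h ≤ (idx hh i).1 + 1 by simp [idx]; omega)]
    congr 2
    exact Fin.ext (by simp [idx]; omega)

/-- The coefficients of multiplication by p. -/
def cP (F : FormalGroup (E0 p n)) (k : ℕ) : E0 p n := PowerSeries.coeff k (nsmulSeries F p)

theorem cP_zero (F : FormalGroup (E0 p n)) : cP F 0 = 0 := by
  rw [cP, PowerSeries.coeff_zero_eq_constantCoeff_apply]
  exact constantCoeff_nsmulSeries F p

variable (hn1 : 1 ≤ n) (hh : 1 ≤ h) (F : FormalGroup (E0 p n)) (P : GoodPoint p n h C)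

/-- Multiplication by p at the point, as a series in y ^ Q. -/
def gser : PowerSeries (unitBall C) :=
  PowerSeries.mk fun k => ⟨P.chi (cP F (p ^ h * k)), norm_chi_le hn1 P _⟩

/-- The derivatives of these coefficients. -/
def rser (i : Fin (n - h)) : PowerSeries (unitBall C) :=
  PowerSeries.mk fun k =>
    ⟨Taylor.dval P.emb (red p n (cP F (p ^ h * k))) (idx hh i) (coord P),
      Taylor.norm_dval_le (norm_emb_le P.emb) _ _ fun l => (norm_coord_lt P l).le⟩

/-- The linear part of multiplication by p at a root. -/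
def Row (w : C) (i : Fin (n - h)) : C := peval (unitBall C).subtype (rser hh F P i) w

omit [IsUltrametricDist C] in
theorem norm_pow_lt {y : C} (hy : ‖y‖ < 1) : ‖y ^ p ^ h‖ < 1 := by
  rw [norm_pow]
  exact pow_lt_one₀ (norm_nonneg _) hy (pow_ne_zero _ (Fact.out : p.Prime).ne_zero)

theorem Row_zero (i : Fin (n - h)) : Row hh F P 0 i = 0 := by
  rw [Row, peval, tsum_eq_single 0 fun k hk => by rw [zero_pow hk, mul_zero]]
  rw [pow_zero, mul_one, rser, PowerSeries.coeff_mk]
  show Taylor.dval P.emb (red p n (cP F (p ^ h * 0))) (idx hh i) (coord P) = 0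
  rw [mul_zero, cP_zero, map_zero]
  simp [Taylor.dval]

theorem gser_constantCoeff : PowerSeries.constantCoeff (gser hn1 F P) = 0 := by
  rw [← PowerSeries.coeff_zero_eq_constantCoeff_apply, gser, PowerSeries.coeff_mk]
  exact Subtype.ext (by show P.chi (cP F (p ^ h * 0)) = 0; rw [mul_zero, cP_zero, map_zero])

variable [CompleteSpace C] [CharP C p]
variable (hco : ∀ k, ¬ p ^ h ∣ k → cP F k ∈ heightIdeal p n h)

include hco hh

omit [CompleteSpace C] in
theorem pMul_eq (y : C) : pMul F P y = peval (unitBall C).subtype (gser hn1 F P) (y ^ p ^ h) := by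
  have hQ : 0 < p ^ h := pow_pos (Fact.out : p.Prime).pos h
  rw [pMul, peval, peval, ← (mul_right_injective₀ hQ.ne').tsum_eq
    (f := fun k => P.chi (PowerSeries.coeff k (nsmulSeries F p)) * y ^ k) (fun k hk => ?_)]
  · refine tsum_congr fun k => ?_
    rw [gser, PowerSeries.coeff_mk, pow_mul]
    rfl
  · rcases em (p ^ h ∣ k) with ⟨m, rfl⟩ | hnd
    · exact ⟨m, rfl⟩
    · refine absurd ?_ hk
      show P.chi (PowerSeries.coeff k (nsmulSeries F p)) * y ^ k = 0
      rw [show PowerSeries.coeff k (nsmulSeries F p) = cP F k from rfl,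
        chi_eq_zero_of_mem hh P (hco k hnd), zero_mul]

omit [CompleteSpace C] in
theorem norm_pMul_le_jac (hn1 : 1 ≤ n) {y : C} (hy : ‖y‖ < 1) : ‖pMul F P y‖ ≤ ‖y‖ ^ p ^ h := by
  rw [pMul_eq hn1 hh F P hco, ← norm_pow]
  exact Eval.norm_peval_le Weier.jA_le (norm_pow_lt hy).le _ (gser_constantCoeff hn1 F P)

theorem norm_pMul_sub_le (hn1 : 1 ≤ n) {a b : C} (ha : ‖a‖ < 1) (hb : ‖b‖ < 1) :
    ‖pMul F P a - pMul F P b‖ ≤ ‖a - b‖ ^ p ^ h := by
  rw [pMul_eq hn1 hh F P hco, pMul_eq hn1 hh F P hco]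
  refine norm_peval_sub_le Weier.jA_le Weier.jA_le (norm_pow_lt ha) (norm_pow_lt hb)
    (fun k => by rw [sub_self, norm_zero]; positivity) ?_
  rw [← sub_pow_char_pow, norm_pow]

theorem pMul_shift (hn1 : 1 ≤ n) (hn : h < n) {η : Fin (n - h) → C} {P' : GoodPoint p n h C}
    (hs : IsShift P η P') (hη : ‖η‖ < 1) {y : C} (hy : ‖y‖ < 1) (hy0 : pMul F P y = 0) :
    ‖pMul F P' y - ∑ i, η i * Row hh F P (y ^ p ^ h) i‖ ≤ ‖η‖ ^ 2 := by
  have hw := norm_pow_lt (p := p) (h := h) hy
  have h1 := hasSum_peval Weier.jA_le (gser hn1 F P') hw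
  have h2 := hasSum_peval Weier.jA_le (gser hn1 F P) hw
  rw [← pMul_eq hn1 hh F P' hco] at h1
  rw [← pMul_eq hn1 hh F P hco, hy0] at h2
  have h3 := hasSum_sum (s := Finset.univ) fun i (_ : i ∈ Finset.univ) =>
    (hasSum_peval Weier.jA_le (rser hh F P i) hw).mul_left (η i)
  have hS := (h1.sub h2).sub h3
  rw [sub_zero] at hS
  unfold Row
  rw [← hS.tsum_eq]
  refine IsUltrametricDist.norm_tsum_le_of_forall_le_of_nonneg (sq_nonneg _) fun k => ?_
  simp only [gser, rser, PowerSeries.coeff_mk, Subring.coe_subtype]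
  set c := cP F (p ^ h * k)
  set s := shiftVec n h η
  rw [chi_eq_value hn1 P', chi_eq_value hn1 P, coord_of_isShift hn.le P P' η hs, hs.1]
  have e : ∑ i, η i * (Taylor.dval P.emb (red p n c) (idx hh i) (coord P) * (y ^ p ^ h) ^ k) =
      (∑ l, s l * Taylor.dval P.emb (red p n c) l (coord P)) * (y ^ p ^ h) ^ k := by
    rw [sum_shiftVec hh η, Finset.sum_mul]
    exact Finset.sum_congr rfl fun i _ => by ring
  rw [e, ← sub_mul, ← sub_mul, norm_mul]
  refine le_trans (mul_le_of_le_one_right (norm_nonneg _) ?_)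
    (Taylor.norm_taylor (norm_emb_le P.emb) (red p n c) (norm_nonneg η) hη (norm_coord_lt P)
      fun l => norm_shiftVec_le η l)
  rw [norm_pow]
  exact pow_le_one₀ (norm_nonneg _) hw.le

omit hco

omit [CompleteSpace C] in
theorem coeff_one_gser (hn1 : 1 ≤ n) (hv : cP F (p ^ h) - vv p n h ∈ heightIdeal p n h) :
    (PowerSeries.coeff 1 (gser hn1 F P) : unitBall C).1 = P.chi (vv p n h) := by
  rw [gser, PowerSeries.coeff_mk]
  show P.chi (cP F (p ^ h * 1)) = _
  rw [mul_one, ← sub_eq_zero, ← map_sub]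
  exact chi_eq_zero_of_mem hh P hv

/-- Roots are isolated: the origin is the only small one. -/
theorem eq_zero_of_root (hn1 : 1 ≤ n) (hv : cP F (p ^ h) - vv p n h ∈ heightIdeal p n h) {w : C}
    (hw : ‖w‖ < ‖P.chi (vv p n h)‖) (h0 : peval (unitBall C).subtype (gser hn1 F P) w = 0) :
    w = 0 := by
  have hw1 : ‖w‖ < 1 := hw.trans_le (norm_chi_le hn1 P _)
  have ht := Weier.norm_taylor_one Weier.jA_le (gser hn1 F P) (show ‖(0 : C)‖ < 1 by simp) hw1
  have hz : peval (unitBall C).subtype (gser hn1 F P) 0 = 0 :=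
    norm_le_zero_iff.1 (by
      simpa using Eval.norm_peval_le (y := (0 : C)) Weier.jA_le (by simp) _
        (gser_constantCoeff hn1 F P))
  have hd : peval (unitBall C).subtype (PowerSeries.derivative _ (gser hn1 F P)) 0 =
      P.chi (vv p n h) := by
    rw [peval, tsum_eq_single 0 fun k hk => by rw [zero_pow hk, mul_zero], pow_zero, mul_one,
      PowerSeries.coeff_derivative, Nat.cast_zero, zero_add, zero_add, mul_one]
    exact coeff_one_gser hh F P hn1 hv
  rw [zero_add, h0, hz, hd, sub_zero, zero_sub, norm_neg, norm_mul, sq] at ht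
  by_contra hne
  exact absurd (le_of_mul_le_mul_right ht (norm_pos_iff.2 hne)) (not_le.2 hw)

end Vale.Agent.P217.EF
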