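import Vale.Agent.P217.Eval

/-!
# P217, block EF, Jacobian part: first order Taylor bound for series with small coefficients
-/

noncomputable section

namespace Vale.Agent.P217.Taylor

open scoped Classical

variable {K : Type} [NontriviallyNormedField K] [IsUltrametricDist K]
variable {R : Type} [CommRing R] {d : ℕ}

/-- Linear part of the monomial with exponents `k` at `x`. -/
def dmon (i : Fin d) (x : Fin d → K) (k : Fin d →₀ ℕ) : K :=
  (k i : K) * ∏ l, x l ^ (k - Finsupp.single i 1 : Fin d →₀ ℕ) l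

/-- The value at `x` of the partial derivative in the `i`-th variable. -/
def dval (j : R →+* K) (f : MvPowerSeries (Fin d) R) (i : Fin d) (x : Fin d → K) : K :=
  ∑' k : Fin d →₀ ℕ, j (MvPowerSeries.coeff k f) * dmon i x k

theorem norm_add_le {a b : K} {c : ℝ} (ha : ‖a‖ ≤ c) (hb : ‖b‖ ≤ c) : ‖a + b‖ ≤ c :=
  le_trans (IsUltrametricDist.norm_add_le_max a b) (max_le ha hb)

theorem norm_natCast_le (m : ℕ) : ‖(m : K)‖ ≤ 1 := IsUltrametricDist.norm_natCast_le_one K m

omit [IsUltrametricDist K] in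
theorem norm_mul_le {a b : K} (ha : ‖a‖ ≤ 1) (hb : ‖b‖ ≤ 1) : ‖a * b‖ ≤ 1 := by
  rw [norm_mul]
  exact mul_le_one₀ ha (norm_nonneg _) hb

omit [IsUltrametricDist K] in
theorem norm_monomial_le {x : Fin d → K} (hx : ∀ l, ‖x l‖ ≤ 1) (k : Fin d →₀ ℕ) :
    ‖∏ l, x l ^ k l‖ ≤ 1 := by
  rw [norm_prod]
  exact Finset.prod_le_one (fun l _ => norm_nonneg _) fun l _ => by
    rw [norm_pow]; exact pow_le_one₀ (norm_nonneg _) (hx l)

theorem norm_dmon_le {x : Fin d → K} (hx : ∀ l, ‖x l‖ ≤ 1) (i : Fin d) (k : Fin d →₀ ℕ) :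
    ‖dmon i x k‖ ≤ 1 :=
  norm_mul_le (norm_natCast_le _) (norm_monomial_le hx _)

/-- The expansion `(a + b) ^ m = a ^ m + m a ^ (m - 1) b + O(b ^ 2)`. -/
theorem norm_pow_expand {a b : K} (ha : ‖a‖ ≤ 1) (hb : ‖b‖ ≤ 1) (m : ℕ) :
    ‖(a + b) ^ m - a ^ m - (m : K) * a ^ (m - 1) * b‖ ≤ ‖b‖ ^ 2 := by
  induction m with
  | zero => simp
  | succ m ih =>
    have e : (a + b) ^ (m + 1) - a ^ (m + 1) - ((m + 1 : ℕ) : K) * a ^ m * b =
        ((a + b) ^ m - a ^ m - (m : K) * a ^ (m - 1) * b) * (a + b) +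
          (m : K) * a ^ (m - 1) * b ^ 2 := by
      rcases m with _ | m
      · simp
      · push_cast [Nat.add_sub_cancel]; ring
    rw [Nat.add_sub_cancel, e]
    refine norm_add_le ?_ ?_
    · rw [norm_mul]
      exact le_trans (mul_le_of_le_one_right (norm_nonneg _) (norm_add_le ha hb)) ih
    · rw [norm_mul, norm_pow]
      refine mul_le_of_le_one_left (sq_nonneg _) (norm_mul_le (norm_natCast_le _) ?_)
      rw [norm_pow]
      exact pow_le_one₀ (norm_nonneg _) ha

theorem norm_prod_expand {ι : Type*} (s : Finset ι) (f g L : ι → K) {r : ℝ} (hr : 0 ≤ r)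
    (hr1 : r ≤ 1) (hg : ∀ i ∈ s, ‖g i‖ ≤ 1) (hL : ∀ i ∈ s, ‖L i‖ ≤ r)
    (hf : ∀ i ∈ s, ‖f i - g i - L i‖ ≤ r ^ 2) :
    ‖∏ i ∈ s, f i - ∏ i ∈ s, g i - ∑ i ∈ s, L i * ∏ l ∈ s.erase i, g l‖ ≤ r ^ 2 ∧
      ‖∏ i ∈ s, g i‖ ≤ 1 ∧ ‖∑ i ∈ s, L i * ∏ l ∈ s.erase i, g l‖ ≤ r := by
  induction s using Finset.induction with
  | empty => simp [hr, pow_nonneg hr]
  | @insert a s ha ih =>
    obtain ⟨h1, h2, h3⟩ := ih (fun i hi => hg i (Finset.mem_insert_of_mem hi))
      (fun i hi => hL i (Finset.mem_insert_of_mem hi))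
      (fun i hi => hf i (Finset.mem_insert_of_mem hi))
    have hga := hg a (Finset.mem_insert_self a s)
    have hLa := hL a (Finset.mem_insert_self a s)
    have hfa := hf a (Finset.mem_insert_self a s)
    have hS : ∑ i ∈ insert a s, L i * ∏ l ∈ (insert a s).erase i, g l =
        L a * ∏ l ∈ s, g l + g a * ∑ i ∈ s, L i * ∏ l ∈ s.erase i, g l := by
      rw [Finset.sum_insert ha, Finset.erase_insert ha, Finset.mul_sum]
      congr 1
      refine Finset.sum_congr rfl fun i hi => ?_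
      rw [Finset.erase_insert_of_ne (fun h : a = i => ha (h ▸ hi)),
        Finset.prod_insert (fun h => ha (Finset.mem_of_mem_erase h))]
      ring
    rw [hS, Finset.prod_insert ha, Finset.prod_insert ha]
    refine ⟨?_, norm_mul_le hga h2, norm_add_le ?_ ?_⟩
    · have hr2 : r ^ 2 ≤ r := pow_le_of_le_one hr hr1 two_ne_zero
      have hfa1 : ‖f a‖ ≤ 1 := by
        rw [show f a = (g a + L a) + (f a - g a - L a) by ring]
        exact norm_add_le (norm_add_le hga (hLa.trans hr1)) (hfa.trans (hr2.trans hr1))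
      rw [show f a * ∏ i ∈ s, f i - g a * ∏ i ∈ s, g i -
          (L a * ∏ l ∈ s, g l + g a * ∑ i ∈ s, L i * ∏ l ∈ s.erase i, g l) =
          (f a * (∏ i ∈ s, f i - ∏ i ∈ s, g i - ∑ i ∈ s, L i * ∏ l ∈ s.erase i, g l) +
            (f a - g a - L a) * ∏ i ∈ s, g i) +
          (f a - g a) * ∑ i ∈ s, L i * ∏ l ∈ s.erase i, g l by ring]
      refine norm_add_le (norm_add_le ?_ ?_) ?_
      · rw [norm_mul]; exact le_trans (mul_le_of_le_one_left (norm_nonneg _) hfa1) h1
      · rw [norm_mul]; exact le_trans (mul_le_of_le_one_right (norm_nonneg _) h2) hfa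
      · rw [norm_mul, sq]
        refine mul_le_mul ?_ h3 (norm_nonneg _) hr
        rw [show f a - g a = (f a - g a - L a) + L a by ring]
        exact norm_add_le (hfa.trans hr2) hLa
    · rw [norm_mul]; exact le_trans (mul_le_of_le_one_right (norm_nonneg _) h2) hLa
    · rw [norm_mul]; exact le_trans (mul_le_of_le_one_left (norm_nonneg _) hga) h3

theorem norm_mon_expand {x t : Fin d → K} {r : ℝ} (hr : 0 ≤ r) (hr1 : r ≤ 1)
    (hx : ∀ l, ‖x l‖ ≤ 1) (ht : ∀ l, ‖t l‖ ≤ r) (k : Fin d →₀ ℕ) :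
    ‖∏ l, (x l + t l) ^ k l - ∏ l, x l ^ k l - ∑ i, t i * dmon i x k‖ ≤ r ^ 2 := by
  have h := (norm_prod_expand Finset.univ (fun l => (x l + t l) ^ k l) (fun l => x l ^ k l)
    (fun l => (k l : K) * x l ^ (k l - 1) * t l) hr hr1
    (fun l _ => by rw [norm_pow]; exact pow_le_one₀ (norm_nonneg _) (hx l))
    (fun l _ => by
      rw [norm_mul]
      refine le_trans (mul_le_of_le_one_left (norm_nonneg _) (norm_mul_le (norm_natCast_le _) ?_))
        (ht l)
      rw [norm_pow]; exact pow_le_one₀ (norm_nonneg _) (hx l))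
    (fun l _ => le_trans (norm_pow_expand (hx l) ((ht l).trans hr1) (k l))
      (pow_le_pow_left₀ (norm_nonneg _) (ht l) 2))).1
  refine le_trans (le_of_eq ?_) h
  congr 2
  refine Finset.sum_congr rfl fun i _ => ?_
  have e : ∏ l, x l ^ (k - Finsupp.single i 1 : Fin d →₀ ℕ) l =
      x i ^ (k i - 1) * ∏ l ∈ Finset.univ.erase i, x l ^ k l := by
    rw [← Finset.mul_prod_erase Finset.univ _ (Finset.mem_univ i)]
    congr 1
    · simp
    · exact Finset.prod_congr rfl fun l hl => by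
        simp [Finsupp.single_eq_of_ne (Finset.ne_of_mem_erase hl)]
  rw [dmon, e]
  ring_nf
  refine congrArg (_ * ·) (Finset.prod_congr (Finset.ext fun l => ?_) fun _ _ => rfl)
  simp

theorem tendsto_dmon_zero {j : R →+* K} (hj : ∀ a, ‖j a‖ ≤ 1) (f : MvPowerSeries (Fin d) R)
    (i : Fin d) {x : Fin d → K} (hx : ∀ l, ‖x l‖ < 1) :
    Filter.Tendsto (fun k : Fin d →₀ ℕ => j (MvPowerSeries.coeff k f) * dmon i x k)
      Filter.cofinite (nhds 0) := by
  rw [NormedAddGroup.tendsto_nhds_zero]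
  intro ε hε
  have hfin : ∀ l : Fin d, ∃ N : ℕ, ∀ m ≥ N, ‖x l‖ ^ m < ε := fun l =>
    Filter.eventually_atTop.1 ((tendsto_pow_atTop_nhds_zero_of_lt_one (norm_nonneg _)
      (hx l)).eventually (gt_mem_nhds hε))
  choose N hN using hfin
  refine (((Finset.Iic (Finsupp.equivFunOnFinite.symm fun l => N l + 1))).finite_toSet.subset
    fun k hk => ?_)
  simp only [Finset.coe_Iic, Set.mem_Iic]
  by_contra hle
  obtain ⟨l, hl⟩ : ∃ l, N l + 1 < k l := by
    by_contra h
    push Not at h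
    exact hle fun l => by simpa using h l
  apply hk
  show ‖j (MvPowerSeries.coeff k f) * dmon i x k‖ < ε
  rw [norm_mul]
  refine lt_of_le_of_lt (mul_le_of_le_one_left (norm_nonneg _) (hj _)) ?_
  rw [dmon, norm_mul]
  refine lt_of_le_of_lt (mul_le_of_le_one_left (norm_nonneg _) (norm_natCast_le _)) ?_
  rw [norm_prod, ← Finset.mul_prod_erase Finset.univ _ (Finset.mem_univ l)]
  refine lt_of_le_of_lt (mul_le_of_le_one_right (norm_nonneg _) (Finset.prod_le_one
    (fun m _ => norm_nonneg _) fun m _ => by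
      rw [norm_pow]; exact pow_le_one₀ (norm_nonneg _) (hx m).le)) ?_
  rw [norm_pow]
  refine hN l _ ?_
  have hle1 : (Finsupp.single i 1 : Fin d →₀ ℕ) l ≤ 1 := by
    rw [Finsupp.single_apply]; split_ifs <;> omega
  have : (k - Finsupp.single i 1 : Fin d →₀ ℕ) l = k l - (Finsupp.single i 1 : Fin d →₀ ℕ) l := rfl
  omega

variable [CompleteSpace K]

theorem summable_dval {j : R →+* K} (hj : ∀ a, ‖j a‖ ≤ 1) (f : MvPowerSeries (Fin d) R)
    (i : Fin d) {x : Fin d → K} (hx : ∀ l, ‖x l‖ < 1) :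
    Summable (fun k : Fin d →₀ ℕ => j (MvPowerSeries.coeff k f) * dmon i x k) :=
  NonarchimedeanAddGroup.summable_of_tendsto_cofinite_zero (tendsto_dmon_zero hj f i hx)

omit [CompleteSpace K] in
theorem norm_dval_le {j : R →+* K} (hj : ∀ a, ‖j a‖ ≤ 1) (f : MvPowerSeries (Fin d) R)
    (i : Fin d) {x : Fin d → K} (hx : ∀ l, ‖x l‖ ≤ 1) : ‖dval j f i x‖ ≤ 1 :=
  IsUltrametricDist.norm_tsum_le_of_forall_le_of_nonneg zero_le_one fun k =>
    norm_mul_le (hj _) (norm_dmon_le hx i k)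

/-- The first order expansion. -/
theorem norm_taylor {j : R →+* K} (hj : ∀ a, ‖j a‖ ≤ 1) (f : MvPowerSeries (Fin d) R)
    {x t : Fin d → K} {r : ℝ} (hr : 0 ≤ r) (hr1 : r < 1) (hx : ∀ l, ‖x l‖ < 1)
    (ht : ∀ l, ‖t l‖ ≤ r) :
    ‖mveval j f (fun l => x l + t l) - mveval j f x - ∑ i, t i * dval j f i x‖ ≤ r ^ 2 := by
  have hxt : ∀ l, ‖x l + t l‖ < 1 := fun l =>
    lt_of_le_of_lt (IsUltrametricDist.norm_add_le_max _ _) (max_lt (hx l) ((ht l).trans_lt hr1))
  have h := ((Eval.hasSum_mveval hj hxt f).sub (Eval.hasSum_mveval hj hx f)).sub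
    (hasSum_sum (s := Finset.univ) fun i _ => ((summable_dval hj f i hx).hasSum.mul_left (t i)))
  rw [show mveval j f (fun l => x l + t l) - mveval j f x - ∑ i, t i * dval j f i x =
    mveval j f (fun l => x l + t l) - mveval j f x -
      ∑ i, t i * ∑' k : Fin d →₀ ℕ, j (MvPowerSeries.coeff k f) * dmon i x k from rfl,
    ← h.tsum_eq]
  refine IsUltrametricDist.norm_tsum_le_of_forall_le_of_nonneg (sq_nonneg r) fun k => ?_
  rw [show j (MvPowerSeries.coeff k f) * ∏ l, (x l + t l) ^ k l -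
      j (MvPowerSeries.coeff k f) * ∏ l, x l ^ k l -
      ∑ i, t i * (j (MvPowerSeries.coeff k f) * dmon i x k) =
      j (MvPowerSeries.coeff k f) *
        (∏ l, (x l + t l) ^ k l - ∏ l, x l ^ k l - ∑ i, t i * dmon i x k) by
    rw [mul_sub, mul_sub, Finset.mul_sum]
    congr 1
    exact Finset.sum_congr rfl fun i _ => by ring,
    norm_mul]
  exact le_trans (mul_le_of_le_one_left (norm_nonneg _) (hj _))
    (norm_mon_expand hr hr1.le (fun l => (hx l).le) ht k)

omit [CompleteSpace K] in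
/-- Near the origin the derivative is the linear coefficient. -/
theorem norm_dval_sub_le {j : R →+* K} (hj : ∀ a, ‖j a‖ ≤ 1) (f : MvPowerSeries (Fin d) R)
    (i : Fin d) {x : Fin d → K} {ρ : ℝ} (hρ : 0 ≤ ρ) (hρ1 : ρ < 1) (hx : ∀ l, ‖x l‖ ≤ ρ)
    (hs : Summable (fun k : Fin d →₀ ℕ => j (MvPowerSeries.coeff k f) * dmon i x k)) :
    ‖dval j f i x - j (MvPowerSeries.coeff (Finsupp.single i 1) f)‖ ≤ ρ := by
  rw [dval, hs.tsum_eq_add_tsum_ite (Finsupp.single i 1)]
  have e1 : dmon i x (Finsupp.single i 1) = 1 := by simp [dmon]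
  rw [e1, mul_one, add_sub_cancel_left]
  refine IsUltrametricDist.norm_tsum_le_of_forall_le_of_nonneg hρ fun k => ?_
  split_ifs with hk
  · simpa using hρ
  rw [norm_mul]
  refine le_trans (mul_le_of_le_one_left (norm_nonneg _) (hj _)) ?_
  by_cases hki : k i = 0
  · simp [dmon, hki, hρ]
  obtain ⟨l, hl⟩ : ∃ l, (k - Finsupp.single i 1 : Fin d →₀ ℕ) l ≠ 0 := by
    by_contra h
    push Not at h
    apply hk
    ext l
    have := h l
    simp only [Finsupp.coe_tsub, Pi.sub_apply] at this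
    rcases eq_or_ne l i with rfl | hli
    · simp only [Finsupp.single_eq_same] at this ⊢; omega
    · simp only [Finsupp.single_eq_of_ne hli] at this ⊢; omega
  rw [dmon, norm_mul]
  refine le_trans (mul_le_of_le_one_left (norm_nonneg _) (norm_natCast_le _)) ?_
  rw [norm_prod, ← Finset.mul_prod_erase Finset.univ _ (Finset.mem_univ l)]
  refine le_trans (mul_le_of_le_one_right (norm_nonneg _) (Finset.prod_le_one
    (fun m _ => norm_nonneg _) fun m _ => by
      rw [norm_pow]; exact pow_le_one₀ (norm_nonneg _) ((hx m).trans hρ1.le))) ?_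
  rw [norm_pow]
  exact le_trans (pow_le_of_le_one (norm_nonneg _) ((hx l).trans hρ1.le) hl) (hx l)

end Vale.Agent.P217.Taylor
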